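import Vale.Agent.P146.H479.Th
import Vale.Agent.P146.H479.Expo

/-!
# P146: moving variance to inner levels (helper437)

`fe_move`: if the cumulative variances (bonds and fields) of `(b', w')` are at most those of
`(b, w)` and the totals agree, the free energy does not decrease.
-/

open MeasureTheory ProbabilityTheory

namespace Vale.Agent.P146.H437

open Vale.Agent.P157 Vale.Agent.P157.Lv Vale.Agent.P157.Lv.Sy
open Vale.Agent.P146.H425 Vale.Agent.P146.H325 Vale.Agent.P146.H93 Vale.Agent.P146.H479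

set_option linter.unusedSectionVars false

variable {n K l : ℕ} {m b w b' w' : ℕ → ℝ}

lemma rl_nonneg (hm : Em K m) (hl : l ≤ K) {ν : Type} [Fintype ν] (d : (Fin n → ℤˣ) → ν → ℝ) :
    0 ≤ H186.rl (skS n K m b w) d l := by
  have hR := (linS_sk (n := n) hm b w).reg
  have h1 : EG fun z => ∑ k, (skS n K m b w).T l (fun _ x => d x k) z ^ 2 :=
    EG.sum _ fun k _ => (hR.eg_T (l := l) (by simpa using hl) (Nh.snd fun x => d x k)).pow 2
  have h2 := hR.Ex_mono (X := Fin n → ℤˣ) (f := fun _ _ => (0 : ℝ))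
    (g := fun z _ => ∑ k, (skS n K m b w).T l (fun _ x => d x k) z ^ 2)
    (Nh.fst (EG.const 0)) (Nh.fst h1) fun z _ => Finset.sum_nonneg fun k _ => sq_nonneg _
  rwa [hR.Ex_const] at h2

lemma QB_nonneg (hm : Em K m) (hl : l ≤ K) : 0 ≤ QB n K m b w l := rl_nonneg hm hl _

lemma QW_nonneg (hm : Em K m) (hl : l ≤ K) : 0 ≤ QW n K m b w l := rl_nonneg hm hl _

lemma dc_symm (b b' : ℕ → ℝ) (l : ℕ) : dc b' b l = -dc b b' l := by
  unfold dc cum
  rw [← Finset.sum_neg_distrib]
  exact Finset.sum_congr rfl fun j _ => by ring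

/-- **Moving variance to inner levels raises the free energy.** -/
theorem fe_move (hm : Em K m) (hb : Na K b) (hw : Na K w) (hb' : Na K b') (hw' : Na K w')
    (hB0 : dc b b' K = 0) (hW0 : dc w w' K = 0)
    (hB : ∀ l, 1 ≤ l → l ≤ K → dc b b' l ≤ 0) (hW : ∀ l, 1 ≤ l → l ≤ K → dc w w' l ≤ 0) :
    (skS n K m b w).fe ≤ (skS n K m b' w').fe := by
  have h := fe_super (n := n) hm hb' hw' hb hw
  have h2 := gv_abel (n := n) (m := m) hb' hw' b w
  rw [dc_symm b b' K, dc_symm w w' K, hB0, hW0] at h2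
  have h3 : 0 ≤ ∑ l ∈ Finset.Ico 1 (K + 1), (m (l + 1) - m l) *
      (dc b' b l * QB n K m b' w' l + dc w' w l * QW n K m b' w' l) := by
    refine Finset.sum_nonneg fun l hl => ?_
    obtain ⟨h4, h5⟩ := Finset.mem_Ico.1 hl
    have h6 : l ≤ K := by omega
    refine mul_nonneg (by linarith [hm.mono l h6]) (add_nonneg (mul_nonneg ?_ (QB_nonneg hm h6))
      (mul_nonneg ?_ (QW_nonneg hm h6)))
    · rw [dc_symm]
      linarith [hB l h4 h6]
    · rw [dc_symm]
      linarith [hW l h4 h6]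
  linarith

end Vale.Agent.P146.H437
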