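import Vale.Agent.P146.H560.Unit
import Vale.Agent.P146.H437.Move

/-!
# P146, lower half: the laws of four levels of the grid (helper437)

`psiN n β T1 u S a v z T wa w`: exponents `0.51 u | a u | v u | z u`, bonds
`1 - S u² | (S - T) u² | (T - T1) u² | T1 u²`, white fields `0 | wa u³ | w u³ | 0`, in the units of
the scale `u`.  Links with `psiU` of helper560, monotonicity, convexity in the exponent.
-/

open MeasureTheory ProbabilityTheory

namespace Vale.Agent.P146.H437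

open Vale.Agent.P157 Vale.Agent.P157.Lv Vale.Agent.P157.Lv.Sy
open Vale.Agent.P146.H425 Vale.Agent.P146.H325 Vale.Agent.P146.H93 Vale.Agent.P146.U
open Vale.Agent.P146.H332 Vale.Agent.P146.R1 Vale.Agent.P146.H479 Vale.Agent.P146.H560

set_option linter.unusedSectionVars false

/-- the exponents -/
noncomputable def mN (u a v z : ℝ) : ℕ → ℝ
  | 0 => 0
  | 1 => 51 / 100 * u
  | 2 => a * u
  | 3 => v * u
  | 4 => z * u
  | _ => 1

/-- the amplitudes of the bonds -/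
noncomputable def bN (n : ℕ) (β T1 u S T : ℝ) : ℕ → ℝ
  | 1 => β / √n * √(1 - S * u ^ 2)
  | 2 => β / √n * √((S - T) * u ^ 2)
  | 3 => β / √n * √((T - T1) * u ^ 2)
  | 4 => β / √n * √(T1 * u ^ 2)
  | _ => 0

/-- the amplitudes of the fields -/
noncomputable def wN (u wa w : ℝ) : ℕ → ℝ
  | 2 => √(wa * u ^ 3)
  | 3 => √(w * u ^ 3)
  | _ => 0

/-- the law of four levels, in the units of the scale `u` -/
noncomputable def psiN (n : ℕ) (β T1 u S a v z T wa w : ℝ) : ℝ :=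
  ((skS n 4 (mN u a v z) (bN n β T1 u S T) (wN u wa w)).fe - P1 n β (51 / 100 * u) -
    n * ((wa + w) * u ^ 3) / (2 * β)) / (n * u ^ 5)

variable {n : ℕ} {β κ T1 u s v w S a z T wa τ : ℝ}

lemma em_mN (hu : 0 < u) (ha : 51 / 100 ≤ a) (hav : a ≤ v) (hvz : v ≤ z) (h1 : z * u ≤ 1) :
    Em 4 (mN u a v z) where
  m0 := rfl
  mK := rfl
  mono := fun l hl => by
    rcases l with _ | _ | _ | _ | _ | l
    · show (0 : ℝ) ≤ 51 / 100 * u
      positivity
    · exact mul_le_mul_of_nonneg_right ha hu.le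
    · exact mul_le_mul_of_nonneg_right hav hu.le
    · exact mul_le_mul_of_nonneg_right hvz hu.le
    · exact h1
    · omega
  pos := by
    show (0 : ℝ) < 51 / 100 * u
    positivity

lemma na_bN (hβ : 0 ≤ β) : Na 4 (bN n β T1 u S T) := by
  intro j h1 h2
  have hc : 0 ≤ β / √n := by positivity
  rcases j with _ | _ | _ | _ | _ | j
  · omega
  · exact mul_nonneg hc (Real.sqrt_nonneg _)
  · exact mul_nonneg hc (Real.sqrt_nonneg _)
  · exact mul_nonneg hc (Real.sqrt_nonneg _)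
  · exact mul_nonneg hc (Real.sqrt_nonneg _)
  · omega

lemma na_wN : Na 4 (wN u wa w) := by
  intro j h1 h2
  rcases j with _ | _ | _ | _ | _ | j
  · omega
  · exact le_rfl
  · exact Real.sqrt_nonneg _
  · exact Real.sqrt_nonneg _
  · exact le_rfl
  · omega

/-! ### empty levels -/

/-- the second level is empty -/
lemma fe_del2 (hu : 0 < u) (ha : 51 / 100 ≤ a) (hav : a ≤ v) (hvz : v ≤ 1 + κ)
    (h1 : (1 + κ) * u ≤ 1) :
    (skS n 4 (mN u a v (1 + κ)) (bN n β T1 u S S) (wN u 0 w)).fe =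
      (skS n 3 (mU κ u v) (bU n β T1 u S) (wU u w)).fe := by
  refine fe_cl (i := 2) (ClS.del_lo (by norm_num) ?_ ?_ ?_ ?_ ?_)
    (em_mN hu ha hav hvz h1) (em_mU hu (ha.trans hav) hvz h1) (by norm_num)
  · intro j h2 h3
    have : j = 1 := by omega
    subst this
    exact ⟨rfl, rfl, rfl⟩
  · intro j h2
    rcases j with _ | _ | _ | _ | j
    · omega
    · omega
    · exact ⟨rfl, rfl, rfl⟩
    · exact ⟨rfl, rfl, rfl⟩
    · exact ⟨rfl, rfl, rfl⟩
  · show 0 < a * u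
    have : 0 < a := by linarith
    positivity
  · show β / √n * √((S - S) * u ^ 2) = 0
    rw [sub_self, zero_mul, Real.sqrt_zero, mul_zero]
  · show √(0 * u ^ 3) = 0
    rw [zero_mul, Real.sqrt_zero]

/-- the third level is empty -/
lemma fe_del3 (hu : 0 < u) (ha : 51 / 100 ≤ a) (hav : a ≤ v) (hvz : v ≤ 1 + κ)
    (h1 : (1 + κ) * u ≤ 1) :
    (skS n 4 (mN u a v (1 + κ)) (bN n β T1 u S T1) (wN u w 0)).fe =
      (skS n 3 (mU κ u a) (bU n β T1 u S) (wU u w)).fe := by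
  refine fe_cl (i := 2) (ClS.del_hi (by norm_num) ?_ ?_ ?_ ?_ ?_)
    (em_mN hu ha hav hvz h1) (em_mU hu ha (hav.trans hvz) h1) (by norm_num)
  · intro j h2 h3
    rcases j with _ | _ | _ | j
    · omega
    · exact ⟨rfl, rfl, rfl⟩
    · exact ⟨rfl, rfl, rfl⟩
    · omega
  · intro j h2
    rcases j with _ | _ | _ | _ | j
    · omega
    · omega
    · omega
    · exact ⟨rfl, rfl, rfl⟩
    · exact ⟨rfl, rfl, rfl⟩
  · show 0 < v * u
    have : 0 < v := by linarith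
    positivity
  · show β / √n * √((T1 - T1) * u ^ 2) = 0
    rw [sub_self, zero_mul, Real.sqrt_zero, mul_zero]
  · show √(0 * u ^ 3) = 0
    rw [zero_mul, Real.sqrt_zero]

/-- the last two levels have the same exponent -/
lemma fe_mg3 (hu : 0 < u) (ha : 51 / 100 ≤ a) (haz : a ≤ 1 + κ) (h1 : (1 + κ) * u ≤ 1)
    (hT1 : 0 ≤ T1) (hT : T1 ≤ T) :
    (skS n 4 (mN u a (1 + κ) (1 + κ)) (bN n β T1 u S T) (wN u w 0)).fe =
      (skS n 3 (mU κ u a) (bU n β T u S) (wU u w)).fe := by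
  have hu2 : 0 < u ^ 2 := by positivity
  have e1 : √((T - T1) * u ^ 2) ^ 2 = (T - T1) * u ^ 2 :=
    Real.sq_sqrt (mul_nonneg (by linarith) hu2.le)
  have e2 : √(T1 * u ^ 2) ^ 2 = T1 * u ^ 2 := Real.sq_sqrt (mul_nonneg hT1 hu2.le)
  have e3 : √(T * u ^ 2) ^ 2 = T * u ^ 2 := Real.sq_sqrt (mul_nonneg (by linarith) hu2.le)
  refine fe_cl (i := 3) (ClS.merge (by norm_num) ?_ ?_ ?_ ?_ ?_ ?_ ?_)
    (em_mN hu ha haz le_rfl h1) (em_mU hu ha haz h1) (by norm_num)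
  · intro j h2 h3
    rcases j with _ | _ | _ | j
    · omega
    · exact ⟨rfl, rfl, rfl⟩
    · exact ⟨rfl, rfl, rfl⟩
    · omega
  · intro j h2
    rcases j with _ | _ | _ | _ | j
    · omega
    · omega
    · omega
    · omega
    · exact ⟨rfl, rfl, rfl⟩
  · show 0 < (1 + κ) * u
    have : 0 < 1 + κ := by linarith
    positivity
  · rfl
  · rfl
  · show (β / √n * √((T - T1) * u ^ 2)) ^ 2 + (β / √n * √(T1 * u ^ 2)) ^ 2 =
      (β / √n * √(T * u ^ 2)) ^ 2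
    rw [mul_pow, mul_pow, mul_pow, e1, e2, e3]
    ring
  · show √(0 * u ^ 3) ^ 2 + 0 ^ 2 = (0 : ℝ) ^ 2
    rw [zero_mul, Real.sqrt_zero]
    ring

/-! ### three levels at the last exponent -/

/-- the two-level law -/
noncomputable def m2U (u z : ℝ) : ℕ → ℝ
  | 0 => 0
  | 1 => 51 / 100 * u
  | 2 => z * u
  | _ => 1

/-- the amplitudes of the bonds of the two-level law -/
noncomputable def b2U (n : ℕ) (β u S : ℝ) : ℕ → ℝ
  | 1 => β / √n * √(1 - S * u ^ 2)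
  | 2 => β / √n * √(S * u ^ 2)
  | _ => 0

lemma em_m2U (hu : 0 < u) (hz : 51 / 100 ≤ z) (h1 : z * u ≤ 1) : Em 2 (m2U u z) where
  m0 := rfl
  mK := rfl
  mono := fun l hl => by
    rcases l with _ | _ | _ | l
    · show (0 : ℝ) ≤ 51 / 100 * u
      positivity
    · exact mul_le_mul_of_nonneg_right hz hu.le
    · exact h1
    · omega
  pos := by
    show (0 : ℝ) < 51 / 100 * u
    positivity

/-- at the last exponent `psiU` does not depend on `T1` -/
lemma fe_two (hu : 0 < u) (hκ : 51 / 100 ≤ 1 + κ) (h1 : (1 + κ) * u ≤ 1)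
    (hT1 : 0 ≤ T1) (hT : T1 ≤ S) :
    (skS n 3 (mU κ u (1 + κ)) (bU n β T1 u S) (wU u w)).fe =
      (skS n 2 (m2U u (1 + κ)) (b2U n β u S) (wU u w)).fe := by
  have hu2 : 0 < u ^ 2 := by positivity
  have e1 : √((S - T1) * u ^ 2) ^ 2 = (S - T1) * u ^ 2 :=
    Real.sq_sqrt (mul_nonneg (by linarith) hu2.le)
  have e2 : √(T1 * u ^ 2) ^ 2 = T1 * u ^ 2 := Real.sq_sqrt (mul_nonneg hT1 hu2.le)
  have e3 : √(S * u ^ 2) ^ 2 = S * u ^ 2 := Real.sq_sqrt (mul_nonneg (by linarith) hu2.le)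
  refine fe_cl (i := 2) (ClS.merge (by norm_num) ?_ ?_ ?_ ?_ ?_ ?_ ?_)
    (em_mU hu hκ le_rfl h1) (em_m2U hu hκ h1) (by norm_num)
  · intro j h2 h3
    rcases j with _ | _ | j
    · omega
    · exact ⟨rfl, rfl, rfl⟩
    · omega
  · intro j h2
    rcases j with _ | _ | _ | j
    · omega
    · omega
    · omega
    · exact ⟨rfl, rfl, rfl⟩
  · show 0 < (1 + κ) * u
    have : 0 < 1 + κ := by linarith
    positivity
  · rfl
  · rfl
  · show (β / √n * √((S - T1) * u ^ 2)) ^ 2 + (β / √n * √(T1 * u ^ 2)) ^ 2 =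
      (β / √n * √(S * u ^ 2)) ^ 2
    rw [mul_pow, mul_pow, mul_pow, e1, e2, e3]
    ring
  · show √(w * u ^ 3) ^ 2 + 0 ^ 2 = √(w * u ^ 3) ^ 2
    ring

/-! ### the links with `psiU` -/

/-- `T = S`: the second level is empty -/
lemma psiN_S (hu : 0 < u) (ha : 51 / 100 ≤ a) (hav : a ≤ v) (hvz : v ≤ 1 + κ)
    (h1 : (1 + κ) * u ≤ 1) :
    psiN n β T1 u S a v (1 + κ) S 0 w = psiU n β κ T1 u S v w := by
  unfold psiN psiU
  rw [fe_del2 hu ha hav hvz h1, zero_add]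

/-- `T = T1`, field on the second level: the third level is empty -/
lemma psiN_T1 (hu : 0 < u) (ha : 51 / 100 ≤ a) (hav : a ≤ v) (hvz : v ≤ 1 + κ)
    (h1 : (1 + κ) * u ≤ 1) :
    psiN n β T1 u S a v (1 + κ) T1 w 0 = psiU n β κ T1 u S a w := by
  unfold psiN psiU
  rw [fe_del3 hu ha hav hvz h1, add_zero]

/-- the field on the second level, the last two exponents equal -/
lemma psiN_mg (hu : 0 < u) (ha : 51 / 100 ≤ a) (haz : a ≤ 1 + κ) (h1 : (1 + κ) * u ≤ 1)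
    (hT1 : 0 ≤ T1) (hT : T1 ≤ T) :
    psiN n β T1 u S a (1 + κ) (1 + κ) T w 0 = psiU n β κ T u S a w := by
  unfold psiN psiU
  rw [fe_mg3 hu ha haz h1 hT1 hT, add_zero]

/-- at the last exponent `psiU` does not depend on `T1` -/
lemma psiU_ind (hu : 0 < u) (hκ : 51 / 100 ≤ 1 + κ) (h1 : (1 + κ) * u ≤ 1)
    (hT1 : 0 ≤ T1) (hT : T1 ≤ S) (hτ : 0 ≤ τ) (hτS : τ ≤ S) :
    psiU n β κ T1 u S (1 + κ) w = psiU n β κ τ u S (1 + κ) w := by
  unfold psiU
  rw [fe_two hu hκ h1 hT1 hT, fe_two hu hκ h1 hτ hτS]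

/-! ### monotonicity -/

/-- the cumulative differences -/
lemma dc_four {b b' : ℕ → ℝ} {δ : ℝ} (h1 : b' 1 ^ 2 - b 1 ^ 2 = 0) (h2 : b' 2 ^ 2 - b 2 ^ 2 = -δ)
    (h3 : b' 3 ^ 2 - b 3 ^ 2 = δ) (h4 : b' 4 ^ 2 - b 4 ^ 2 = 0) (hδ : 0 ≤ δ) :
    dc b b' 4 = 0 ∧ ∀ l, 1 ≤ l → l ≤ 4 → dc b b' l ≤ 0 := by
  have e1 : dc b b' 1 = 0 := by
    unfold dc
    rw [cum_succ, cum_zero, zero_add]
    exact h1
  have e2 : dc b b' 2 = -δ := by
    have : dc b b' 2 = dc b b' 1 + (b' 2 ^ 2 - b 2 ^ 2) := cum_succ _ _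
    rw [this, e1, h2, zero_add]
  have e3 : dc b b' 3 = 0 := by
    have : dc b b' 3 = dc b b' 2 + (b' 3 ^ 2 - b 3 ^ 2) := cum_succ _ _
    rw [this, e2, h3, neg_add_cancel]
  have e4 : dc b b' 4 = 0 := by
    have : dc b b' 4 = dc b b' 3 + (b' 4 ^ 2 - b 4 ^ 2) := cum_succ _ _
    rw [this, e3, h4, zero_add]
  refine ⟨e4, fun l hl hl4 => ?_⟩
  rcases l with _ | _ | _ | _ | _ | l
  · omega
  · rw [e1]
  · rw [e2]; linarith
  · rw [e3]
  · rw [e4]
  · omega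

/-- **Monotone**: more bonds and more of the field on the third level. -/
theorem psiN_mono {T' wa' w' : ℝ} (hn : 0 < n) (hβ : 0 ≤ β) (hu : 0 < u) (ha : 51 / 100 ≤ a)
    (hav : a ≤ v) (hvz : v ≤ z) (h1 : z * u ≤ 1) (hT1 : T1 ≤ T) (hT : T ≤ T') (hT' : T' ≤ S)
    (hwa : 0 ≤ wa') (hw : 0 ≤ w) (hww : wa' ≤ wa) (hsum : wa + w = wa' + w') :
    psiN n β T1 u S a v z T wa w ≤ psiN n β T1 u S a v z T' wa' w' := by
  have hu2 : 0 < u ^ 2 := by positivity
  have hu3 : 0 < u ^ 3 := by positivity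
  have hn' : (0 : ℝ) < n := Nat.cast_pos.2 hn
  have hsn : √(n : ℝ) ^ 2 = n := Real.sq_sqrt hn'.le
  have key : (skS n 4 (mN u a v z) (bN n β T1 u S T) (wN u wa w)).fe ≤
      (skS n 4 (mN u a v z) (bN n β T1 u S T') (wN u wa' w')).fe := by
    have sq2 : ∀ x : ℝ, 0 ≤ x → (β / √n * √(x * u ^ 2)) ^ 2 = β ^ 2 / n * (x * u ^ 2) := by
      intro x hx
      rw [mul_pow, div_pow, hsn, Real.sq_sqrt (by positivity)]
    obtain ⟨d1, d2⟩ := dc_four (b := bN n β T1 u S T) (b' := bN n β T1 u S T')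
      (δ := β ^ 2 / n * ((T' - T) * u ^ 2))
      (by
        show (β / √n * √(1 - S * u ^ 2)) ^ 2 - (β / √n * √(1 - S * u ^ 2)) ^ 2 = 0
        ring)
      (by
        show (β / √n * √((S - T') * u ^ 2)) ^ 2 - (β / √n * √((S - T) * u ^ 2)) ^ 2 = _
        rw [sq2 _ (by linarith), sq2 _ (by linarith)]
        ring)
      (by
        show (β / √n * √((T' - T1) * u ^ 2)) ^ 2 - (β / √n * √((T - T1) * u ^ 2)) ^ 2 = _
        rw [sq2 _ (by linarith), sq2 _ (by linarith)]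
        ring)
      (by
        show (β / √n * √(T1 * u ^ 2)) ^ 2 - (β / √n * √(T1 * u ^ 2)) ^ 2 = 0
        ring)
      (by
        have : 0 ≤ T' - T := by linarith
        positivity)
    have sq3 : ∀ x : ℝ, 0 ≤ x → √(x * u ^ 3) ^ 2 = x * u ^ 3 := fun x hx =>
      Real.sq_sqrt (by positivity)
    obtain ⟨d3, d4⟩ := dc_four (b := wN u wa w) (b' := wN u wa' w') (δ := (wa - wa') * u ^ 3)
      (by
        show (0 : ℝ) ^ 2 - 0 ^ 2 = 0
        ring)
      (by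
        show √(wa' * u ^ 3) ^ 2 - √(wa * u ^ 3) ^ 2 = _
        rw [sq3 _ hwa, sq3 _ (hwa.trans hww)]
        ring)
      (by
        show √(w' * u ^ 3) ^ 2 - √(w * u ^ 3) ^ 2 = _
        rw [sq3 _ (by linarith), sq3 _ hw]
        have : w' = w + (wa - wa') := by linarith
        rw [this]
        ring)
      (by
        show (0 : ℝ) ^ 2 - 0 ^ 2 = 0
        ring)
      (by
        have : 0 ≤ wa - wa' := by linarith
        positivity)
    exact fe_move (em_mN hu ha hav hvz h1) (na_bN hβ) na_wN (na_bN hβ) na_wN d1 d3 d2 d4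
  unfold psiN
  rw [hsum]
  exact div_le_div_of_nonneg_right (by linarith) (by positivity)

/-! ### convexity in the exponent -/

/-- **`psiU` is convex in the exponent.** -/
theorem psiU_conv {v1 v2 α γ : ℝ} (hn : 0 < n) (hu : 0 < u) (hv1 : 51 / 100 ≤ v1)
    (hv2 : 51 / 100 ≤ v2) (hv1' : v1 ≤ 1 + κ) (hv2' : v2 ≤ 1 + κ) (h1 : (1 + κ) * u ≤ 1)
    (hα : 0 ≤ α) (hγ : 0 ≤ γ) (hαγ : α + γ = 1) (s w : ℝ) :
    psiU n β κ T1 u s (α * v1 + γ * v2) w ≤
      α * psiU n β κ T1 u s v1 w + γ * psiU n β κ T1 u s v2 w := by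
  have hn' : (0 : ℝ) < n := Nat.cast_pos.2 hn
  have h := fe_conv (n := n) (em_mU hu hv1 hv1' h1) (em_mU hu hv2 hv2' h1) (bU n β T1 u s)
    (wU u w) hα hγ hαγ
  have e : (fun j => α * mU κ u v1 j + γ * mU κ u v2 j) = mU κ u (α * v1 + γ * v2) := by
    funext j
    rcases j with _ | _ | _ | _ | j
    · show α * 0 + γ * 0 = (0 : ℝ)
      ring
    · show α * (51 / 100 * u) + γ * (51 / 100 * u) = 51 / 100 * u
      rw [← add_mul, hαγ, one_mul]
    · show α * (v1 * u) + γ * (v2 * u) = (α * v1 + γ * v2) * u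
      ring
    · show α * ((1 + κ) * u) + γ * ((1 + κ) * u) = (1 + κ) * u
      rw [← add_mul, hαγ, one_mul]
    · show α * 1 + γ * 1 = (1 : ℝ)
      rw [mul_one, mul_one, hαγ]
  rw [e] at h
  have h5 : 0 < (n : ℝ) * u ^ 5 := by positivity
  have e2 : α * psiU n β κ T1 u s v1 w + γ * psiU n β κ T1 u s v2 w =
      (α * (skS n 3 (mU κ u v1) (bU n β T1 u s) (wU u w)).fe +
        γ * (skS n 3 (mU κ u v2) (bU n β T1 u s) (wU u w)).fe - P1 n β (51 / 100 * u) -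
          n * (w * u ^ 3) / (2 * β)) / (n * u ^ 5) := by
    unfold psiU
    have hγ' : γ = 1 - α := by linarith
    subst hγ'
    ring
  rw [e2]
  unfold psiU
  exact div_le_div_of_nonneg_right (by linarith) h5.le

end Vale.Agent.P146.H437
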