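import Mathlib

/-!
# P146, lower half: from the rows at a finite grid of shares to the rows at the exponent (helper437)

Pure real analysis.  `gridU` (upper side, exponent `1 + κ`) and `gridL` (lower side, exponent `1`,
field `0`).
-/

namespace Vale.Agent.P146.H437

open Set

/-- `h y₊² ≤ ((y + h)₊³ - y₊³) / 3` -/
lemma cube_up {y h : ℝ} (hh : 0 ≤ h) :
    h * (max y 0) ^ 2 ≤ ((max (y + h) 0) ^ 3 - (max y 0) ^ 3) / 3 := by
  rcases le_total y 0 with hy | hy
  · rw [max_eq_right hy]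
    have : 0 ≤ (max (y + h) 0) ^ 3 := by positivity
    simp only [ne_eq, OfNat.ofNat_ne_zero, not_false_eq_true, zero_pow, mul_zero, sub_zero]
    positivity
  · rw [max_eq_left hy, max_eq_left (by linarith)]
    have h1 : 0 ≤ y * h ^ 2 := by positivity
    have h2 : 0 ≤ h ^ 3 := by positivity
    nlinarith

/-- `((y + h)₊³ - y₊³) / 3 ≤ h (y + h)₊²` -/
lemma cube_lo {y h : ℝ} (hh : 0 ≤ h) :
    ((max (y + h) 0) ^ 3 - (max y 0) ^ 3) / 3 ≤ h * (max (y + h) 0) ^ 2 := by
  rcases le_total (y + h) 0 with hy | hy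
  · rw [max_eq_right hy, max_eq_right (by linarith)]
    norm_num
  · rw [max_eq_left hy]
    rcases le_total y 0 with h2 | h2
    · rw [max_eq_right h2]
      have h3 : y + h ≤ h := by linarith
      have h4 : 0 ≤ (y + h) ^ 2 := by positivity
      nlinarith
    · rw [max_eq_left h2]
      have h1 : 0 ≤ y * h ^ 2 := by positivity
      have h3 : 0 ≤ h ^ 3 := by positivity
      nlinarith

/-- the sum of the squares at the left endpoints -/
lemma sum_sq_up {a t0 h : ℝ} (hh : 0 ≤ h) (h0 : h ≤ t0) (N : ℕ) :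
    ∑ k ∈ Finset.range N, h * (max (a - (t0 + k * h)) 0) ^ 2 ≤ (max a 0) ^ 3 / 3 := by
  have key : ∀ M : ℕ, ∑ k ∈ Finset.range M, h * (max (a - (t0 + k * h)) 0) ^ 2 ≤
      ((max (a - t0 + h) 0) ^ 3 - (max (a - (t0 + M * h) + h) 0) ^ 3) / 3 := by
    intro M
    induction M with
    | zero => simp
    | succ M ih =>
      rw [Finset.sum_range_succ]
      have h1 := cube_up (y := a - (t0 + M * h)) hh
      have e : a - (t0 + ((M + 1 : ℕ) : ℝ) * h) + h = a - (t0 + M * h) := by push_cast; ring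
      rw [e]
      linarith
  have h1 := key N
  have h2 : 0 ≤ (max (a - (t0 + N * h) + h) 0) ^ 3 := by positivity
  have h3 : (max (a - t0 + h) 0) ^ 3 ≤ (max a 0) ^ 3 :=
    pow_le_pow_left₀ (le_max_right _ _) (max_le_max (by linarith) le_rfl) 3
  linarith

/-- the sum of the squares at the right endpoints -/
lemma sum_sq_lo {a t0 h : ℝ} (hh : 0 ≤ h) (N : ℕ) :
    ((max (a - (t0 + h)) 0) ^ 3 - (max (a - (t0 + (N + 1) * h)) 0) ^ 3) / 3 ≤
      ∑ k ∈ Finset.range N, h * (max (a - (t0 + (k + 1) * h)) 0) ^ 2 := by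
  induction N with
  | zero => simp
  | succ M ih =>
    rw [Finset.sum_range_succ]
    have h1 := cube_lo (y := a - (t0 + (M + 1) * h) - h) hh
    have e : a - (t0 + (M + 1) * h) - h + h = a - (t0 + (M + 1) * h) := by ring
    rw [e] at h1
    have e2 : a - (t0 + (((M + 1 : ℕ) : ℝ) + 1) * h) = a - (t0 + (M + 1) * h) - h := by
      push_cast; ring
    rw [e2]
    linarith

/-- **The upper grid.**  `f` = the law at the exponent `1 + κ`, `g` = the law at the exponent
`1 + κ - r` on the shares `[T1, S]` and on the field, `g2` = the same with the share `[T1, t0]` at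
the exponent `1 + κ`, `B T` = the law with the exponent `1 + κ - r` on the shares `[T, S]` and
`1 + κ` on `[T1, T]` and on the field. -/
theorem gridU {C0 C r E S t0 d1 d2 w γ e0 : ℝ} {f g g2 : ℝ → ℝ} {B : ℝ → ℝ → ℝ} {N : ℕ}
    {W : Set ℝ} (hC : 0 ≤ C) (hr : 0 < r) (ht0 : 0 ≤ t0) (hN : 0 < N)
    (hS : t0 ≤ S) (hh : S - t0 ≤ N * t0) (hd2 : 0 ≤ d2) (hw0 : 0 ≤ w)
    (hw : w ∈ W)
    (hB1 : ∀ w' ∈ W, g w' ≤ g2 w' ∧ g2 w' ≤ B t0 w')
    (hB2 : ∀ T ∈ Icc t0 S, ∀ w' ∈ W, B t0 w' ≤ B T w' ∧ B T w' ≤ f w')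
    (hBS : f w = B S w)
    (hfg : ∀ w' ∈ W, f w' ≤ g w' + E * r)
    (hB0 : g2 w ≤ g w + e0 * r)
    (hU : ∀ T ∈ Icc t0 S, ∃ θ α : ℝ, -C0 ≤ α ∧
      (∀ w' ∈ W, B T w' ≤ B T w + γ * α * (w' - w) + d1) ∧
      (∀ T' ∈ Icc t0 S, B T' w ≤ B T w + θ * (T' - T) + d1) ∧
      θ ≤ r / 4 * ((1 + C * max α 0) * (max (α - T) 0) ^ 2 + d2))
    (hF : ∃ θ α : ℝ, -C0 ≤ α ∧
      (∀ w' ∈ W, g2 w' ≤ g2 w + γ * α * (w' - w) + d1) ∧
      B t0 w ≤ g2 w + θ + d1 ∧ θ ≤ r * (C * w * (max α 0 + √w) + d2)) :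
    ∃ α : ℝ, -C0 ≤ α ∧
      (∀ w' ∈ W, f w' ≤ f w + γ * α * (w' - w) + (d1 + E * r)) ∧
      (f w - g w) / r ≤ (1 + C * max α 0) * (max α 0) ^ 3 / 12 + C * w * max α 0 +
        C * w * √w + ((S / 4 + 1) * d2 + (N + 1) * d1 / r + e0) := by
  classical
  have hN' : (0 : ℝ) < N := by exact_mod_cast hN
  obtain ⟨h, hhd⟩ : ∃ h, h = (S - t0) / N := ⟨_, rfl⟩
  have hh0 : 0 ≤ h := by rw [hhd]; exact div_nonneg (by linarith) hN'.le
  have hNh : (N : ℝ) * h = S - t0 := by rw [hhd]; field_simp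
  have hht : h ≤ t0 := by
    rw [hhd, div_le_iff₀ hN']
    linarith
  obtain ⟨θF, αF, hF0, hF1, hF2, hF3⟩ := hF
  have hmem : ∀ k : ℕ, k ≤ N → t0 + k * h ∈ Icc t0 S := by
    intro k hk
    have hk' : (k : ℝ) ≤ N := by exact_mod_cast hk
    have h1 : (k : ℝ) * h ≤ N * h := mul_le_mul_of_nonneg_right hk' hh0
    have h2 : 0 ≤ (k : ℝ) * h := by positivity
    exact ⟨by linarith, by linarith⟩
  have hex : ∀ k : ℕ, ∃ θ α : ℝ, k < N → (-C0 ≤ α ∧
      (∀ w' ∈ W, B (t0 + k * h) w' ≤ B (t0 + k * h) w + γ * α * (w' - w) + d1) ∧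
      (∀ T' ∈ Icc t0 S, B T' w ≤ B (t0 + k * h) w + θ * (T' - (t0 + k * h)) + d1) ∧
      θ ≤ r / 4 * ((1 + C * max α 0) * (max (α - (t0 + k * h)) 0) ^ 2 + d2)) := by
    intro k
    by_cases hk : k < N
    · obtain ⟨θ, α, h1⟩ := hU _ (hmem k hk.le)
      exact ⟨θ, α, fun _ => h1⟩
    · exact ⟨0, 0, fun h => absurd h hk⟩
  choose θ α hα using hex
  obtain ⟨j, hj, hjmax⟩ := Finset.exists_max_image (Finset.range N) α ⟨0, Finset.mem_range.2 hN⟩
  have hjN := Finset.mem_range.1 hj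
  -- the maximal response
  obtain ⟨a, ha⟩ : ∃ a, a = max (α j) αF := ⟨_, rfl⟩
  have haj : ∀ k < N, α k ≤ a := fun k hk => by
    rw [ha]; exact (hjmax k (Finset.mem_range.2 hk)).trans (le_max_left _ _)
  have haF : αF ≤ a := by rw [ha]; exact le_max_right _ _
  refine ⟨a, ?_, ?_, ?_⟩
  · rw [ha]; exact hF0.trans (le_max_right _ _)
  · intro w' hw'
    have h2 := hfg w' hw'
    have h5 := hB1 w' hw'
    rcases le_total (α j) αF with hle | hle
    · rw [ha, max_eq_right hle]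
      have h1 := hF1 w' hw'
      have h3 := hB1 w hw
      have h4 := hB2 t0 ⟨le_rfl, hS⟩ w hw
      linarith [h4.2, h3.2, h5.1]
    · rw [ha, max_eq_left hle]
      have h1 := (hα j hjN).2.1 w' hw'
      have h3 := (hB2 (t0 + j * h) (hmem j hjN.le) w hw).2
      have h4 := (hB2 (t0 + j * h) (hmem j hjN.le) w' hw').1
      linarith [h5.1, h5.2]
  · -- the energy
    have hstep : ∀ k < N, B (t0 + (k + 1) * h) w - B (t0 + k * h) w ≤
        r / 4 * ((1 + C * max a 0) * (h * (max (a - (t0 + k * h)) 0) ^ 2) + h * d2) + d1 := by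
      intro k hk
      obtain ⟨h0, h1, h2, h3⟩ := hα k hk
      have hk1 := hmem (k + 1) (by omega)
      push_cast at hk1
      have h4 := h2 (t0 + (k + 1) * h) hk1
      have e1 : t0 + (k + 1) * h - (t0 + k * h) = h := by ring
      rw [e1] at h4
      have h5 : θ k * h ≤ r / 4 * ((1 + C * max (α k) 0) *
          (max (α k - (t0 + k * h)) 0) ^ 2 + d2) * h := mul_le_mul_of_nonneg_right h3 hh0
      have h6 : (1 + C * max (α k) 0) * (max (α k - (t0 + k * h)) 0) ^ 2 ≤
          (1 + C * max a 0) * (max (a - (t0 + k * h)) 0) ^ 2 := by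
        have h7 := haj k hk
        have h8 : max (α k) 0 ≤ max a 0 := max_le_max h7 le_rfl
        have h9 : (max (α k - (t0 + k * h)) 0) ^ 2 ≤ (max (a - (t0 + k * h)) 0) ^ 2 :=
          pow_le_pow_left₀ (le_max_right _ _) (max_le_max (by linarith) le_rfl) 2
        have h10 : 1 + C * max (α k) 0 ≤ 1 + C * max a 0 := by
          linarith [mul_le_mul_of_nonneg_left h8 hC]
        have h11 : 0 ≤ 1 + C * max a 0 := by
          have := mul_nonneg hC (le_max_right a 0)
          linarith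
        exact mul_le_mul h10 h9 (by positivity) h11
      have h12 : r / 4 * ((1 + C * max (α k) 0) *
          (max (α k - (t0 + k * h)) 0) ^ 2 + d2) * h ≤ r / 4 * ((1 + C * max a 0) *
          (h * (max (a - (t0 + k * h)) 0) ^ 2) + h * d2) := by
        have h13 : 0 ≤ r / 4 * h := by positivity
        have h14 := mul_le_mul_of_nonneg_left (add_le_add_left h6 d2) h13
        nlinarith
      linarith
    have hsum : ∀ M : ℕ, M ≤ N → B (t0 + M * h) w - B t0 w ≤
        r / 4 * ((1 + C * max a 0) *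
          (∑ k ∈ Finset.range M, h * (max (a - (t0 + k * h)) 0) ^ 2) + M * h * d2) + M * d1 := by
      intro M
      induction M with
      | zero => intro _; simp
      | succ M ih =>
        intro hM
        have h1 := ih (by omega)
        have h2 := hstep M (by omega)
        rw [Finset.sum_range_succ]
        push_cast
        nlinarith
    have h1 := hsum N le_rfl
    have h2 := sum_sq_up (a := a) hh0 hht N
    have eS : t0 + (N : ℝ) * h = S := by linarith
    rw [eS, ← hBS, hNh] at h1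
    have ha0 : 0 ≤ max a 0 := le_max_right _ _
    have hCa : 0 ≤ C * max a 0 := mul_nonneg hC ha0
    have h3 : (1 + C * max a 0) * (∑ k ∈ Finset.range N, h * (max (a - (t0 + k * h)) 0) ^ 2) ≤
        (1 + C * max a 0) * ((max a 0) ^ 3 / 3) :=
      mul_le_mul_of_nonneg_left h2 (by linarith)
    have h4 : θF ≤ r * (C * w * (max a 0 + √w) + d2) := by
      refine hF3.trans (mul_le_mul_of_nonneg_left ?_ hr.le)
      have h5 : max αF 0 ≤ max a 0 := max_le_max haF le_rfl
      have h6 : 0 ≤ C * w := mul_nonneg hC hw0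
      have := mul_le_mul_of_nonneg_left (add_le_add_left h5 (√w)) h6
      linarith
    have h7 : (S - t0) * d2 ≤ S * d2 := mul_le_mul_of_nonneg_right (by linarith) hd2
    have h8 : f w - g w ≤ r * ((1 + C * max a 0) * (max a 0) ^ 3 / 12 + C * w * max a 0 +
        C * w * √w + ((S / 4 + 1) * d2 + e0)) + (N + 1) * d1 := by
      have h9 : r / 4 * ((1 + C * max a 0) *
          (∑ k ∈ Finset.range N, h * (max (a - (t0 + k * h)) 0) ^ 2) + (S - t0) * d2) ≤
          r / 4 * ((1 + C * max a 0) * ((max a 0) ^ 3 / 3) + S * d2) :=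
        mul_le_mul_of_nonneg_left (by linarith) (by positivity)
      nlinarith
    rw [div_le_iff₀ hr]
    refine h8.trans (le_of_eq ?_)
    field_simp
    ring

/-- **The lower grid.**  `f w'` = the law at the exponent `1` in the field `w'`; `B T` = the law
with the exponent `1` on the shares `[T, S]` and `1 + r` on `[T1, T]` and on the field.  The
response is at most the cap `C'` as soon as the secant slope is at most `K0`. -/
theorem gridL {C' K0 r E S T1 d1 d2 γ : ℝ} {f : ℝ → ℝ} {B : ℝ → ℝ → ℝ} {N : ℕ} {W : Set ℝ}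
    (hr : 0 < r) (hN : 0 < N) (hS : T1 < S) (hCS : C' ≤ S)
    (hB1 : ∀ T ∈ Icc T1 S, ∀ w' ∈ W, f w' ≤ B T w')
    (hB2 : ∀ T ∈ Icc T1 S, B T 0 ≤ B S 0) (hBT : B T1 0 = f 0)
    (hfg : B S 0 ≤ f 0 + E * r) (hK : (B S 0 - f 0) / r ≤ K0)
    (hcap : K0 + ((S - T1) / 4 * d2 + N * d1 / r) <
      (max (C' - (T1 + (S - T1) / N)) 0) ^ 3 / 12)
    (hL : ∀ T ∈ Icc (T1 + (S - T1) / N) S, ∃ θ α : ℝ,
      (∀ w' ∈ W, B T w' ≤ B T 0 + γ * α * w' + d1) ∧
      (∀ T' ∈ Icc T1 S, B T' 0 ≤ B T 0 + θ * (T' - T) + d1) ∧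
      r / 4 * ((max (α - T) 0) ^ 2 - d2) ≤ θ) :
    ∃ α : ℝ, α ≤ C' ∧
      (∀ w' ∈ W, f w' ≤ f 0 + γ * α * w' + (d1 + E * r)) ∧
      (max (α - (T1 + (S - T1) / N)) 0) ^ 3 / 12 ≤ (B S 0 - f 0) / r +
        ((S - T1) / 4 * d2 + N * d1 / r) := by
  classical
  have hN' : (0 : ℝ) < N := by exact_mod_cast hN
  obtain ⟨h, hhd⟩ : ∃ h, h = (S - T1) / N := ⟨_, rfl⟩
  rw [← hhd] at hL hcap ⊢
  have hh0 : 0 < h := by rw [hhd]; exact div_pos (by linarith) hN'
  have hNh : (N : ℝ) * h = S - T1 := by rw [hhd]; field_simp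
  have hmem : ∀ k : ℕ, k < N → T1 + (k + 1) * h ∈ Icc (T1 + h) S := by
    intro k hk
    have hk' : ((k + 1 : ℕ) : ℝ) ≤ N := by exact_mod_cast hk
    have h1 : ((k + 1 : ℕ) : ℝ) * h ≤ N * h := mul_le_mul_of_nonneg_right hk' hh0.le
    push_cast at h1
    have h2 : 0 ≤ (k : ℝ) * h := by positivity
    exact ⟨by linarith, by linarith⟩
  have hex : ∀ k : ℕ, ∃ θ α : ℝ, k < N → (
      (∀ w' ∈ W, B (T1 + (k + 1) * h) w' ≤
        B (T1 + (k + 1) * h) 0 + γ * α * w' + d1) ∧
      (∀ T' ∈ Icc T1 S, B T' 0 ≤ B (T1 + (k + 1) * h) 0 + θ * (T' - (T1 + (k + 1) * h)) + d1) ∧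
      r / 4 * ((max (α - (T1 + (k + 1) * h)) 0) ^ 2 - d2) ≤ θ) := by
    intro k
    by_cases hk : k < N
    · obtain ⟨θ, α, h1⟩ := hL _ (hmem k hk)
      exact ⟨θ, α, fun _ => h1⟩
    · exact ⟨0, 0, fun h => absurd h hk⟩
  choose θ α hα using hex
  obtain ⟨j, hj, hjmin⟩ := Finset.exists_min_image (Finset.range N) α ⟨0, Finset.mem_range.2 hN⟩
  have hjN := Finset.mem_range.1 hj
  have haj : ∀ k < N, α j ≤ α k := fun k hk => hjmin k (Finset.mem_range.2 hk)
  have hT : ∀ k < N, T1 + (k + 1) * h ∈ Icc T1 S := fun k hk =>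
    ⟨by linarith [(hmem k hk).1], (hmem k hk).2⟩
  -- the sum for any number below all the responses
  have main : ∀ a : ℝ, a ≤ S → (∀ k < N, a ≤ α k) →
      (max (a - (T1 + h)) 0) ^ 3 / 12 ≤ (B S 0 - f 0) / r + ((S - T1) / 4 * d2 + N * d1 / r) := by
    intro a haS ha
    have hstep : ∀ k < N, r / 4 * (h * (max (a - (T1 + (k + 1) * h)) 0) ^ 2 - h * d2) - d1 ≤
        B (T1 + (k + 1) * h) 0 - B (T1 + k * h) 0 := by
      intro k hk
      obtain ⟨h1, h2, h3⟩ := hα k hk
      have hk0 : T1 + (k : ℝ) * h ∈ Icc T1 S := by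
        have := (hT k hk).2
        have h5 : 0 ≤ (k : ℝ) * h := by positivity
        exact ⟨by linarith, by linarith⟩
      have h4 := h2 _ hk0
      have e1 : T1 + k * h - (T1 + (k + 1) * h) = -h := by ring
      rw [e1] at h4
      have h5 : r / 4 * ((max (α k - (T1 + (k + 1) * h)) 0) ^ 2 - d2) * h ≤ θ k * h :=
        mul_le_mul_of_nonneg_right h3 hh0.le
      have h6 : (max (a - (T1 + (k + 1) * h)) 0) ^ 2 ≤
          (max (α k - (T1 + (k + 1) * h)) 0) ^ 2 :=
        pow_le_pow_left₀ (le_max_right _ _) (max_le_max (by linarith [ha k hk]) le_rfl) 2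
      have h7 : 0 ≤ r / 4 * h := by positivity
      have h8 := mul_le_mul_of_nonneg_left h6 h7
      nlinarith
    have hsum : ∀ M : ℕ, M ≤ N → r / 4 *
        ((∑ k ∈ Finset.range M, h * (max (a - (T1 + (k + 1) * h)) 0) ^ 2) - M * h * d2) -
          M * d1 ≤ B (T1 + M * h) 0 - B T1 0 := by
      intro M
      induction M with
      | zero => intro _; simp
      | succ M ih =>
        intro hM
        have h1 := ih (by omega)
        have h2 := hstep M (by omega)
        rw [Finset.sum_range_succ]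
        push_cast
        nlinarith
    have h1 := hsum N le_rfl
    have h2 := sum_sq_lo (a := a) (t0 := T1) hh0.le N
    have eS : T1 + (N : ℝ) * h = S := by linarith
    rw [eS, hBT, hNh] at h1
    have h3 : max (a - (T1 + (N + 1) * h)) 0 = 0 := by
      refine max_eq_right ?_
      have h5 : T1 + ((N : ℝ) + 1) * h = S + h := by linarith
      rw [h5]
      linarith
    rw [h3] at h2
    have h6 : r / 4 * ((max (a - (T1 + h)) 0) ^ 3 / 3 - (S - T1) * d2) - N * d1 ≤
        B S 0 - f 0 := by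
      have h7 : r / 4 * ((max (a - (T1 + h)) 0) ^ 3 / 3) ≤ r / 4 *
          (∑ k ∈ Finset.range N, h * (max (a - (T1 + (k + 1) * h)) 0) ^ 2) := by
        refine mul_le_mul_of_nonneg_left ?_ (by positivity)
        refine le_trans (le_of_eq ?_) h2
        ring
      nlinarith
    have h8 : (max (a - (T1 + h)) 0) ^ 3 / 12 * r ≤
        (B S 0 - f 0) + ((S - T1) / 4 * d2 * r + N * d1) := by nlinarith
    have h9 : (max (a - (T1 + h)) 0) ^ 3 / 12 ≤
        ((B S 0 - f 0) + ((S - T1) / 4 * d2 * r + N * d1)) / r := by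
      rw [le_div_iff₀ hr]
      exact h8
    refine h9.trans (le_of_eq ?_)
    field_simp
  have hαC : α j ≤ C' := by
    by_contra hcon
    rw [not_le] at hcon
    have h1 := main C' hCS fun k hk => hcon.le.trans (haj k hk)
    linarith
  refine ⟨α j, hαC, fun w' hw' => ?_, main _ (hαC.trans hCS) haj⟩
  have h1 := hB1 _ (hT j hjN) w' hw'
  have h2 := (hα j hjN).1 w' hw'
  have h3 := hB2 _ (hT j hjN)
  linarith

/-- removing the shift `t` from the response -/
lemma cube_shift {a t C' : ℝ} (ht : 0 ≤ t) (ha : a ≤ C') :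
    (max a 0) ^ 3 / 12 ≤ (max (a - t) 0) ^ 3 / 12 + t * (max C' 0) ^ 2 / 4 := by
  have h0 : 0 ≤ max C' 0 := le_max_right _ _
  have hsq : 0 ≤ t * (max C' 0) ^ 2 := by positivity
  rcases le_total a 0 with h1 | h1
  · rw [max_eq_right h1]
    have : 0 ≤ (max (a - t) 0) ^ 3 := by positivity
    simp only [ne_eq, OfNat.ofNat_ne_zero, not_false_eq_true, zero_pow, zero_div]
    positivity
  · rw [max_eq_left h1]
    have hC : a ≤ max C' 0 := ha.trans (le_max_left _ _)
    have hsq2 : a ^ 2 ≤ (max C' 0) ^ 2 := pow_le_pow_left₀ h1 hC 2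
    have hsq3 : t * a ^ 2 ≤ t * (max C' 0) ^ 2 := mul_le_mul_of_nonneg_left hsq2 ht
    rcases le_total (a - t) 0 with h2 | h2
    · rw [max_eq_right h2]
      have h3 : a ^ 3 ≤ t * a ^ 2 := by
        have : a ^ 3 = a * a ^ 2 := by ring
        rw [this]
        exact mul_le_mul_of_nonneg_right (by linarith) (by positivity)
      nlinarith
    · rw [max_eq_left h2]
      have h3 : 0 ≤ a * t ^ 2 := by positivity
      have h4 : t ^ 3 ≤ a * t ^ 2 := by
        have : t ^ 3 = t * t ^ 2 := by ring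
        rw [this]
        exact mul_le_mul_of_nonneg_right (by linarith) (by positivity)
      nlinarith

end Vale.Agent.P146.H437
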