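import Vale.Agent.P146.H437.GridN
import Vale.Agent.P146.H437.GridR
import Vale.Agent.P146.H66.M4SK

/-!
# P146, lower half: the rows at the exponent from the rows at the shares (helper437)

`inU_grid`: the fields `inU` of `H865.Dat` for `psiU`, from `RowU` and `RowF`;
`inL_grid`: the field `inL`, from `RowL`.  Everything for an arbitrary set `W ⊆ [0, 1]` of
fields.  The a priori input is one energy difference `E` at the fields of `W`.
-/

open MeasureTheory ProbabilityTheory Set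

namespace Vale.Agent.P146.H437

open Vale.Agent.P157 Vale.Agent.P157.Lv Vale.Agent.P157.Lv.Sy
open Vale.Agent.P146.H425 Vale.Agent.P146.H325 Vale.Agent.P146.H93 Vale.Agent.P146.U
open Vale.Agent.P146.H332 Vale.Agent.P146.R1 Vale.Agent.P146.H479 Vale.Agent.P146.H560

set_option linter.unusedSectionVars false

variable {n N : ℕ} {β κ τ T1 u S r C0 C C' E K0 d1 d2 : ℝ} {W : Set ℝ}

/-- The upper rows at the shares `T ∈ [τ, S]`, field on the level `3` (exponent `1 + κ`). -/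
def RowU (n : ℕ) (β κ u S τ T1 r C0 C d1 d2 : ℝ) (W : Set ℝ) : Prop :=
  ∀ w ∈ W, ∀ T ∈ Icc τ S, ∃ θ α : ℝ, -C0 ≤ α ∧
    (∀ w' ∈ W, psiN n β T1 u S (1 + κ - r) (1 + κ) (1 + κ) T 0 w' ≤
      psiN n β T1 u S (1 + κ - r) (1 + κ) (1 + κ) T 0 w + 1 / (4 * β) * α * (w' - w) + d1) ∧
    (∀ T' ∈ Icc τ S, psiN n β T1 u S (1 + κ - r) (1 + κ) (1 + κ) T' 0 w ≤
      psiN n β T1 u S (1 + κ - r) (1 + κ) (1 + κ) T 0 w + θ * (T' - T) + d1) ∧
    θ ≤ r / 4 * ((1 + C * max α 0) * (max (α - T) 0) ^ 2 + d2)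

/-- The upper row at the share `τ` with the field moved from the level `2` (exponent `1 + κ - r`)
to the level `3` (exponent `1 + κ`). -/
def RowF (n : ℕ) (β κ u S τ T1 r C0 C d1 d2 : ℝ) (W : Set ℝ) : Prop :=
  ∀ w ∈ W, ∃ θ α : ℝ, -C0 ≤ α ∧
    (∀ w' ∈ W, psiN n β T1 u S (1 + κ - r) (1 + κ) (1 + κ) τ w' 0 ≤
      psiN n β T1 u S (1 + κ - r) (1 + κ) (1 + κ) τ w 0 + 1 / (4 * β) * α * (w' - w) + d1) ∧
    psiN n β T1 u S (1 + κ - r) (1 + κ) (1 + κ) τ 0 w ≤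
      psiN n β T1 u S (1 + κ - r) (1 + κ) (1 + κ) τ w 0 + θ + d1 ∧
    θ ≤ r * (C * w * (max α 0 + √w) + d2)

/-- The lower rows at the shares `T ∈ [τ + (S - τ) / N, S]`, field `0`; field on the level `3`
(exponent `1 + r`). -/
def RowL (n : ℕ) (β κ u S τ r : ℝ) (N : ℕ) (d1 d2 : ℝ) (W : Set ℝ) : Prop :=
  ∀ T ∈ Icc (τ + (S - τ) / N) S, ∃ θ α : ℝ,
    (∀ w' ∈ W, psiN n β τ u S 1 (1 + r) (1 + κ) T 0 w' ≤
      psiN n β τ u S 1 (1 + r) (1 + κ) T 0 0 + 1 / (4 * β) * α * w' + d1) ∧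
    (∀ T' ∈ Icc τ S, psiN n β τ u S 1 (1 + r) (1 + κ) T' 0 0 ≤
      psiN n β τ u S 1 (1 + r) (1 + κ) T 0 0 + θ * (T' - T) + d1) ∧
    r / 4 * ((max (α - T) 0) ^ 2 - d2) ≤ θ

/-- The a priori input: the energy of the law with all the exponents raised to `2 + κ`. -/
def ApE (n : ℕ) (β κ τ u S E : ℝ) (W : Set ℝ) : Prop :=
  ∀ w ∈ W, psiU n β (1 + κ) τ u S (1 + (1 + κ)) w ≤ psiU n β κ τ u S (1 + κ) w + E

/-- **Lowering the exponent by `r` costs at most `r` times the local energy.** -/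
theorem lower_le (hn : 0 < n) (hu : 0 < u) (hκ : 0 ≤ κ) (h2 : (1 + (1 + κ)) * u ≤ 1)
    (hr : 0 ≤ r) (hrκ : r ≤ κ) (w : ℝ) :
    psiU n β κ τ u S (1 + κ) w - psiU n β κ τ u S (1 + κ - r) w ≤
      r * (psiU n β (1 + κ) τ u S (1 + (1 + κ)) w - psiU n β κ τ u S (1 + κ) w) := by
  have hn' : (0 : ℝ) < n := Nat.cast_pos.2 hn
  have h1 : (1 + κ) * u ≤ 1 := by nlinarith
  have hr1 : 0 < 1 + r := by linarith
  obtain ⟨l, hl⟩ : ∃ l, l = r / (1 + r) := ⟨_, rfl⟩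
  have hl0 : 0 ≤ l := by rw [hl]; positivity
  have hl1 : 1 - l = 1 / (1 + r) := by rw [hl]; field_simp; ring
  have hl2 : 0 ≤ 1 - l := by rw [hl1]; positivity
  have hlr : l * (1 + r) = r := by rw [hl]; field_simp
  have e0 : Em 3 (mU κ u (1 + κ - r)) := em_mU hu (by linarith) (by linarith) h1
  have e1 : Em 3 (mU (1 + κ) u (1 + (1 + κ))) := em_mU hu (by linarith) le_rfl h2
  have e2 : Em 3 (mU κ u (1 + κ)) := em_mU hu (by linarith) le_rfl h1
  have h := fe_conv (n := n) e0 e1 (bU n β τ u S) (wU u w) hl2 hl0 (by ring)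
  have h3 : (skS n 3 (mU κ u (1 + κ)) (bU n β τ u S) (wU u w)).fe ≤
      (skS n 3 (fun j => (1 - l) * mU κ u (1 + κ - r) j + l * mU (1 + κ) u (1 + (1 + κ)) j)
        (bU n β τ u S) (wU u w)).fe := by
    refine H66.fe_mono_m e2 (em_conv e0 e1 hl2 hl0 (by ring)) ?_ _ _
    intro j hj1 hj3
    rcases j with _ | _ | _ | _ | j
    · omega
    · show 51 / 100 * u ≤ (1 - l) * (51 / 100 * u) + l * (51 / 100 * u)
      exact le_of_eq (by ring)
    · show (1 + κ) * u ≤ (1 - l) * ((1 + κ - r) * u) + l * ((1 + (1 + κ)) * u)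
      refine le_of_eq ?_
      have : (1 - l) * ((1 + κ - r) * u) + l * ((1 + (1 + κ)) * u) =
        (1 + κ - r + l * (1 + r)) * u := by ring
      rw [this, hlr]
      ring
    · show (1 + κ) * u ≤ (1 - l) * ((1 + κ) * u) + l * ((1 + (1 + κ)) * u)
      have : 0 ≤ l * u := by positivity
      nlinarith
    · omega
  have h5 : 0 < (n : ℝ) * u ^ 5 := by positivity
  -- in the units of the scale
  have h6 : psiU n β κ τ u S (1 + κ) w ≤ (1 - l) * psiU n β κ τ u S (1 + κ - r) w +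
      l * psiU n β (1 + κ) τ u S (1 + (1 + κ)) w := by
    have e : (1 - l) * psiU n β κ τ u S (1 + κ - r) w +
        l * psiU n β (1 + κ) τ u S (1 + (1 + κ)) w =
      ((1 - l) * (skS n 3 (mU κ u (1 + κ - r)) (bU n β τ u S) (wU u w)).fe +
        l * (skS n 3 (mU (1 + κ) u (1 + (1 + κ))) (bU n β τ u S) (wU u w)).fe -
        P1 n β (51 / 100 * u) - n * (w * u ^ 3) / (2 * β)) / (n * u ^ 5) := by
      unfold psiU
      ring
    rw [e]
    unfold psiU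
    exact div_le_div_of_nonneg_right (by linarith) h5.le
  obtain ⟨f, hf⟩ : ∃ f, f = psiU n β κ τ u S (1 + κ) w := ⟨_, rfl⟩
  obtain ⟨g, hg⟩ : ∃ g, g = psiU n β κ τ u S (1 + κ - r) w := ⟨_, rfl⟩
  obtain ⟨H, hH⟩ : ∃ H, H = psiU n β (1 + κ) τ u S (1 + (1 + κ)) w := ⟨_, rfl⟩
  rw [← hf, ← hg, ← hH] at h6 ⊢
  have h7 : (1 + r) * f ≤ g + r * H := by
    have h8 := mul_le_mul_of_nonneg_left h6 hr1.le
    have e : (1 + r) * ((1 - l) * g + l * H) = ((1 + r) * (1 - l)) * g + (l * (1 + r)) * H := by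
      ring
    have e9 : (1 + r) * (1 - l) = 1 := by rw [hl1]; field_simp
    rw [e, e9, hlr, one_mul] at h8
    exact h8
  linarith

/-- **The upper rows at the exponent `1 + κ`** (`inU` of `H865.Dat`). -/
theorem inU_grid (hn : 0 < n) (hβ : 0 < β) (hu : 0 < u) (hκ : 0 < κ)
    (h2 : (1 + (1 + κ)) * u ≤ 1) (hT1 : 0 ≤ T1) (hτ1 : T1 ≤ τ) (hτ : 0 < τ) (hτS : τ ≤ S)
    (hr : 0 < r) (hrκ : r ≤ κ) (hC : 0 ≤ C) (hd2 : 0 ≤ d2) (hN : 0 < N) (hNS : S - τ ≤ N * τ)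
    (hW : W ⊆ Icc 0 1) (hE : ApE n β κ τ u S E W)
    (hRU : RowU n β κ u S τ T1 r C0 C d1 d2 W) (hRF : RowF n β κ u S τ T1 r C0 C d1 d2 W) :
    ∀ w ∈ W, ∃ α K : ℝ, -C0 ≤ α ∧
      (∀ w' ∈ W, psiU n β κ τ u S (1 + κ) w' ≤ psiU n β κ τ u S (1 + κ) w +
        α / (4 * β) * (w' - w) + (d1 + E * r)) ∧
      psiU n β κ τ u S (1 + κ) w - K * κ ≤ psiU n β κ τ u S 1 w ∧
      K ≤ (1 + C * max α 0) * (max α 0) ^ 3 / 12 + C * w * max α 0 + C * w * √w +
        ((S / 4 + 1) * d2 + (N + 1) * d1 / r) := by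
  intro w hw
  have h1 : (1 + κ) * u ≤ 1 := by nlinarith
  have ha : 51 / 100 ≤ 1 + κ - r := by linarith
  have haz : 1 + κ - r ≤ 1 + κ := by linarith
  have hw0 := (hW hw).1
  -- the functions
  have hg2 : ∀ w', psiN n β T1 u S (1 + κ - r) (1 + κ) (1 + κ) τ w' 0 =
      psiU n β κ τ u S (1 + κ - r) w' := fun w' => psiN_mg hu ha haz h1 hT1 hτ1
  have hfS : ∀ w', psiN n β T1 u S (1 + κ - r) (1 + κ) (1 + κ) S 0 w' =
      psiU n β κ τ u S (1 + κ) w' := fun w' =>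
    (psiN_S hu ha haz le_rfl h1).trans (psiU_ind hu (by linarith) h1 hT1 (hτ1.trans hτS) hτ.le hτS)
  obtain ⟨α, hα1, hα2, hα3⟩ := gridU (γ := 1 / (4 * β)) (C0 := C0) (C := C) (r := r) (E := E)
    (S := S) (t0 := τ) (d1 := d1) (d2 := d2) (w := w) (e0 := 0) (N := N) (W := W)
    (f := fun w' => psiU n β κ τ u S (1 + κ) w')
    (g := fun w' => psiU n β κ τ u S (1 + κ - r) w')
    (g2 := fun w' => psiN n β T1 u S (1 + κ - r) (1 + κ) (1 + κ) τ w' 0)
    (B := fun T w' => psiN n β T1 u S (1 + κ - r) (1 + κ) (1 + κ) T 0 w')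
    hC hr hτ.le hN hτS hNS hd2 hw0 hw
    (fun w' hw' => ⟨(hg2 w').ge, psiN_mono hn hβ.le hu ha haz le_rfl h1 hτ1 le_rfl hτS le_rfl
      le_rfl (hW hw').1 (by ring)⟩)
    (fun T hT w' hw' => ⟨psiN_mono hn hβ.le hu ha haz le_rfl h1 hτ1 hT.1 hT.2 le_rfl
      (hW hw').1 le_rfl rfl, by
        rw [← hfS w']
        exact psiN_mono hn hβ.le hu ha haz le_rfl h1 (hτ1.trans hT.1) hT.2 le_rfl le_rfl
          (hW hw').1 le_rfl rfl⟩)
    (hfS w).symm
    (fun w' hw' => by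
      have h3 := lower_le (β := β) (τ := τ) (S := S) hn hu hκ.le h2 hr.le hrκ w'
      have h4 := mul_le_mul_of_nonneg_left (hE w' hw') hr.le
      linarith)
    (by simp only [hg2, zero_mul, add_zero]; exact le_rfl)
    (hRU w hw) (hRF w hw)
  refine ⟨α, (psiU n β κ τ u S (1 + κ) w - psiU n β κ τ u S (1 + κ - r) w) / r, hα1,
    fun w' hw' => ?_, ?_, ?_⟩
  · have := hα2 w' hw'
    have e : 1 / (4 * β) * α * (w' - w) = α / (4 * β) * (w' - w) := by ring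
    rwa [e] at this
  · -- convexity in the exponent
    have hc := psiU_conv (n := n) (β := β) (T1 := τ) (v1 := 1) (v2 := 1 + κ) (α := r / κ)
      (γ := 1 - r / κ) hn hu (by norm_num) (by linarith) (by linarith) le_rfl h1
      (by positivity) (by
        have : r / κ ≤ 1 := by rw [div_le_one hκ]; exact hrκ
        linarith) (by ring) S w
    have e : r / κ * 1 + (1 - r / κ) * (1 + κ) = 1 + κ - r := by
      field_simp
      ring
    rw [e] at hc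
    obtain ⟨f, hf⟩ : ∃ f, f = psiU n β κ τ u S (1 + κ) w := ⟨_, rfl⟩
    obtain ⟨g, hg⟩ : ∃ g, g = psiU n β κ τ u S (1 + κ - r) w := ⟨_, rfl⟩
    obtain ⟨p, hp⟩ : ∃ p, p = psiU n β κ τ u S 1 w := ⟨_, rfl⟩
    rw [← hf, ← hg, ← hp] at hc ⊢
    have h5 := mul_le_mul_of_nonneg_left hc hκ.le
    have e2 : κ * (r / κ * p + (1 - r / κ) * f) = r * p + (κ - r) * f := by
      field_simp
    rw [e2] at h5
    have h6 : f - p ≤ (f - g) / r * κ := by
      rw [div_mul_eq_mul_div, le_div_iff₀ hr]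
      linarith
    linarith
  · refine hα3.trans (le_of_eq ?_)
    ring

/-- **The lower row at the exponent `1`, field `0`** (`inL` of `H865.Dat`). -/
theorem inL_grid (hn : 0 < n) (hβ : 0 < β) (hu : 0 < u) (hκ : 0 < κ)
    (h2 : (1 + (1 + κ)) * u ≤ 1) (hτ : 0 < τ) (hτS : τ < S) (hCS : C' ≤ S)
    (hr : 0 < r) (hrκ : r ≤ κ) (hN : 0 < N) (hW : W ⊆ Icc 0 1)
    (hE : psiU n β (1 + κ) τ u S (1 + (1 + κ)) 0 ≤ psiU n β κ τ u S (1 + κ) 0 + E)
    (hcap : E + ((S - τ) / 4 * d2 + N * d1 / r) <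
      (max (C' - (τ + (S - τ) / N)) 0) ^ 3 / 12)
    (hRL : RowL n β κ u S τ r N d1 d2 W) :
    ∃ α K : ℝ, α ≤ C' ∧ K ≤ E ∧
      (∀ w' ∈ W, psiU n β κ τ u S 1 w' ≤ psiU n β κ τ u S 1 0 + α / (4 * β) * w' +
        (d1 + E * r)) ∧
      psiU n β κ τ u S 1 0 + K * κ ≤ psiU n β κ τ u S (1 + κ) 0 ∧
      (max α 0) ^ 3 / 12 ≤ K + ((τ + (S - τ) / N) * (max C' 0) ^ 2 / 4 +
        ((S - τ) / 4 * d2 + N * d1 / r)) := by
  have h1 : (1 + κ) * u ≤ 1 := by nlinarith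
  have ha : (51 : ℝ) / 100 ≤ 1 := by norm_num
  have hav : (1 : ℝ) ≤ 1 + r := by linarith
  have hvz : 1 + r ≤ 1 + κ := by linarith
  -- the functions
  have hfT : ∀ w', psiN n β τ u S 1 (1 + r) (1 + κ) τ w' 0 = psiU n β κ τ u S 1 w' :=
    fun w' => psiN_T1 hu ha hav hvz h1
  have hfT0 : psiN n β τ u S 1 (1 + r) (1 + κ) τ 0 0 = psiU n β κ τ u S 1 0 := hfT 0
  have hfS : psiN n β τ u S 1 (1 + r) (1 + κ) S 0 0 = psiU n β κ τ u S (1 + r) 0 :=
    psiN_S hu ha hav hvz h1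
  -- convexity in the exponent
  obtain ⟨f, hf⟩ : ∃ f, f = psiU n β κ τ u S (1 + κ) 0 := ⟨_, rfl⟩
  obtain ⟨g, hg⟩ : ∃ g, g = psiU n β κ τ u S (1 + r) 0 := ⟨_, rfl⟩
  obtain ⟨p, hp⟩ : ∃ p, p = psiU n β κ τ u S 1 0 := ⟨_, rfl⟩
  have hc : g * κ ≤ (κ - r) * p + r * f := by
    have hc := psiU_conv (n := n) (β := β) (T1 := τ) (v1 := 1) (v2 := 1 + κ) (α := 1 - r / κ)
      (γ := r / κ) hn hu (by norm_num) (by linarith) (by linarith) le_rfl h1
      (by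
        have : r / κ ≤ 1 := by rw [div_le_one hκ]; exact hrκ
        linarith) (by positivity) (by ring) S 0
    have e : (1 - r / κ) * 1 + r / κ * (1 + κ) = 1 + r := by
      field_simp
      ring
    rw [e, ← hf, ← hg, ← hp] at hc
    have h5 := mul_le_mul_of_nonneg_right hc hκ.le
    refine h5.trans (le_of_eq ?_)
    field_simp
  have hfp : f - p ≤ κ * E := by
    have h3 := lower_le (β := β) (τ := τ) (S := S) (r := κ) hn hu hκ.le h2 hκ.le le_rfl 0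
    have e : 1 + κ - κ = 1 := by ring
    rw [e, ← hf, ← hp] at h3
    rw [← hf] at hE
    have h4 := mul_le_mul_of_nonneg_left (show psiU n β (1 + κ) τ u S (1 + (1 + κ)) 0 - f ≤ E by
      linarith) hκ.le
    linarith
  have hK : (g - p) / r ≤ E := by
    rw [div_le_iff₀ hr]
    have h5 : (g - p) * κ ≤ (E * r) * κ := by nlinarith
    exact le_of_mul_le_mul_right h5 hκ
  obtain ⟨α, hα1, hα2, hα3⟩ := gridL (γ := 1 / (4 * β)) (C' := C') (K0 := E) (r := r) (E := E)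
    (S := S) (T1 := τ) (d1 := d1) (d2 := d2) (N := N) (W := W)
    (f := fun w' => psiU n β κ τ u S 1 w')
    (B := fun T w' => psiN n β τ u S 1 (1 + r) (1 + κ) T 0 w')
    hr hN hτS hCS
    (fun T hT w' hw' => by
      show psiU n β κ τ u S 1 w' ≤ psiN n β τ u S 1 (1 + r) (1 + κ) T 0 w'
      rw [← hfT w']
      exact psiN_mono hn hβ.le hu ha hav hvz h1 le_rfl hT.1 hT.2 le_rfl le_rfl
        (hW hw').1 (by ring))
    (fun T hT => psiN_mono hn hβ.le hu ha hav hvz h1 hT.1 hT.2 le_rfl le_rfl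
      le_rfl le_rfl rfl)
    hfT0
    (by
      show psiN n β τ u S 1 (1 + r) (1 + κ) S 0 0 ≤ psiU n β κ τ u S 1 0 + E * r
      rw [hfS, ← hg, ← hp]
      have := (div_le_iff₀ hr).1 hK
      linarith)
    (by
      show (psiN n β τ u S 1 (1 + r) (1 + κ) S 0 0 - psiU n β κ τ u S 1 0) / r ≤ E
      rw [hfS, ← hg, ← hp]
      exact hK)
    hcap hRL
  have hα3' : (max (α - (τ + (S - τ) / N)) 0) ^ 3 / 12 ≤ (g - p) / r +
      ((S - τ) / 4 * d2 + N * d1 / r) := by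
    have : (psiN n β τ u S 1 (1 + r) (1 + κ) S 0 0 - psiU n β κ τ u S 1 0) / r = (g - p) / r := by
      rw [hfS, ← hg, ← hp]
    rw [← this]
    exact hα3
  refine ⟨α, (g - p) / r, hα1, hK, fun w' hw' => ?_, ?_, ?_⟩
  · have := hα2 w' hw'
    have e : 1 / (4 * β) * α * w' = α / (4 * β) * w' := by ring
    rwa [e] at this
  · rw [← hf, ← hp]
    have h6 : (g - p) / r * κ ≤ f - p := by
      rw [div_mul_eq_mul_div, div_le_iff₀ hr]
      linarith
    linarith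
  · have hN' : (0 : ℝ) < N := Nat.cast_pos.2 hN
    have ht : 0 ≤ τ + (S - τ) / N := by
      have : 0 ≤ (S - τ) / N := div_nonneg (by linarith) hN'.le
      linarith
    have := cube_shift (a := α) ht hα1
    linarith

end Vale.Agent.P146.H437
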