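import Vale.Agent.P146.H437.ApE
import Vale.Agent.P146.H393.InD

/-!
# P146, lower half: the local energy of the bundled laws (helper437)

`dloc_of`: any law; `dlocI`: the law of one share of helper393 (the hypothesis `hD` of `goodI`).
-/

open MeasureTheory ProbabilityTheory Set

namespace Vale.Agent.P146.H437

open Vale.Agent.P157 Vale.Agent.P157.Lv Vale.Agent.P157.Lv.Sy
open Vale.Agent.P146.H425 Vale.Agent.P146.H325 Vale.Agent.P146.H93 Vale.Agent.P146.U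
open Vale.Agent.P146.H332 Vale.Agent.P146.R1 Vale.Agent.P146.H479 Vale.Agent.P146.H560
open Vale.Agent.P146.H758 (Pu tv)
open Vale.Agent.P146.H393.In (PI mI bI aI psiB S3H tv_aI)

set_option linter.unusedSectionVars false

variable {n N K : ℕ} {β κ τ T1 u v w S r C E E0 C1 a z T q e d c Bl y wa : ℝ} {m b ω : ℕ → ℝ}
  {V : {p // p ∈ PI N} → ℝ} {W : Set ℝ}

/-- **The local energy** from a lower bound of the free energy. -/
theorem dloc_of (hP : PuUp n β C u) (hc1 : 1 ≤ c) (hc8 : c ≤ 8) (htv : tv K ω ≤ 64 * u ^ 3)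
    (hlo : P1 n β (51 / 100 * u) + n / (2 * β) * tv K ω - Bl * (n * u ^ 5) ≤
      (skS n K m b ω).fe) :
    Pu n β (c * u) (tv K ω) ≤ (skS n K m b ω).fe + (C + Bl) * n * u ^ 5 := by
  have h1 := hP c (tv K ω) hc1 hc8 (H758.tv_nonneg K ω) htv
  have e : (C + Bl) * n * u ^ 5 = C * (n * u ^ 5) + Bl * (n * u ^ 5) := by ring
  rw [e]
  linarith

/-- the lower bound in the units of the scale -/
lemma lo_psiB (hn : 0 < n) (hu : 0 < u) (ha : 0 ≤ wa) (hw : 0 ≤ w) (hV : ∀ p, 0 ≤ V p)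
    (h : -Bl ≤ psiB n N β u y a v z q S T1 e V T wa w) :
    P1 n β (51 / 100 * u) + n / (2 * β) * tv (2 * N + 5) (aI N u wa w V) - Bl * (n * u ^ 5) ≤
      (skS n (2 * N + 5) (mI N u y a v z q) (bI n N β u S T T1 e) (aI N u wa w V)).fe := by
  have hn' : (0 : ℝ) < n := by exact_mod_cast hn
  unfold psiB at h
  rw [le_div_iff₀ (by positivity)] at h
  rw [tv_aI hu.le ha hw hV]
  have e1 : (n : ℝ) * ((wa + w) * u ^ 3 + ∑ p, V p) / (2 * β) =
      n / (2 * β) * (∑ p, V p + (wa * u ^ 3 + w * u ^ 3)) := by ring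
  rw [e1] at h
  linarith

/-- **The local energy of the law of one share** (the hypothesis `hD` of `goodI`): the field
`w ∈ W` on the level `2 N + 4` or on the level `2`. -/
theorem dlocI (hn : 0 < n) (hβ : 0 < β) (hu : 0 < u) (hκ : 0 < κ)
    (h2 : (1 + (1 + κ)) * u ≤ 1) (hT1 : 0 ≤ T1) (hτ1 : T1 ≤ τ) (hr : 0 ≤ r) (hrκ : r ≤ κ)
    (hT : T ∈ Icc τ S) (hW : W ⊆ Icc 0 1) (hwW : w ∈ W)
    (hE : ApE n β κ τ u S E W) (hlo : ∀ w ∈ W, -C1 ≤ psiU n β κ τ u S (1 + κ) w)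
    (hP : PuUp n β C u) (hc1 : 1 ≤ c) (hc8 : c ≤ 8) (hV : ∀ p, 0 ≤ V p)
    (hV1 : ∑ p, V p + u ^ 3 ≤ 64 * u ^ 3)
    (hS3 : S3H n N β u (51 / 100) (1 + κ - r) (1 + κ) (1 + κ) q S T1 e τ d V W) :
    (Pu n β (c * u) (tv (2 * N + 5) (aI N u 0 w V)) ≤
      (skS n (2 * N + 5) (mI N u (51 / 100) (1 + κ - r) (1 + κ) (1 + κ) q)
        (bI n N β u S T T1 e) (aI N u 0 w V)).fe + (C + (C1 + r * E + d)) * n * u ^ 5) ∧
    (Pu n β (c * u) (tv (2 * N + 5) (aI N u w 0 V)) ≤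
      (skS n (2 * N + 5) (mI N u (51 / 100) (1 + κ - r) (1 + κ) (1 + κ) q)
        (bI n N β u S T T1 e) (aI N u w 0 V)).fe + (C + (C1 + r * E + d)) * n * u ^ 5) := by
  have hw0 := (hW hwW).1
  have hw1 := (hW hwW).2
  have hu3 : 0 < u ^ 3 := by positivity
  have hwu : w * u ^ 3 ≤ u ^ 3 := by nlinarith
  obtain ⟨k1, k2⟩ := psiN_ge hn hβ hu hκ h2 hT1 hτ1 hr hrκ hT hw0 (hE w hwW) (hlo w hwW)
  obtain ⟨k3, k4⟩ := hS3 T hT w hwW
  have k5 := (abs_le.1 k3).1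
  have k6 := (abs_le.1 k4).1
  refine ⟨dloc_of hP hc1 hc8 ?_ (lo_psiB hn hu le_rfl hw0 hV (by linarith)),
    dloc_of hP hc1 hc8 ?_ (lo_psiB hn hu hw0 le_rfl hV (by linarith))⟩
  · rw [tv_aI hu.le le_rfl hw0 hV]
    linarith
  · rw [tv_aI hu.le hw0 le_rfl hV]
    linarith

end Vale.Agent.P146.H437
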