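import Vale.Agent.P146.H437.UpE
import Vale.Agent.P146.H607.X5

/-!
# P146, lower half: the inputs of the cross rows (helper437)

* `apX`: the a priori box in the letters of helper758 on the windows `[x, 4u]`, `u/2 ≤ x ≤ 4u`;
* `cgX`: the field on the first level (helper97's `gen_c`) in the letters of helper985.
-/

open MeasureTheory ProbabilityTheory Set

namespace Vale.Agent.P146.H437

open Vale.Agent.P157 Vale.Agent.P157.Lv Vale.Agent.P157.Lv.Sy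
open Vale.Agent.P146.H425 Vale.Agent.P146.H325 Vale.Agent.P146.H93 Vale.Agent.P146.U
open Vale.Agent.P146.H332 Vale.Agent.P146.R1 Vale.Agent.P146.H479 Vale.Agent.P146.H560
open Vale.Agent.P146.H758 (Pu Ap tv)
open Vale.Agent.P146.H985.S3 (CG GV sgl rt)

set_option linter.unusedSectionVars false

variable {β : ℝ}

/-- the a priori box on the windows `[x, 4u]` -/
theorem apX (hβ : 0 < β) (h2 : Ex2Out β) (hL : LStar β) :
    ∃ C : ℝ, ∃ n0 : ℕ, 0 < C ∧ 0 < n0 ∧ ∀ n : ℕ, n0 ≤ n → ∀ u B : ℝ,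
      2 * (n : ℝ) ^ (-(1 / 6) : ℝ) ≤ u → u ≤ (n : ℝ) ^ (-(11 / 100) : ℝ) → 0 ≤ B →
      H444.Bx n β B u → ∀ x : ℝ, u / 2 ≤ x → x ≤ 4 * u →
        Ap n β x (4 * u) (8 * u ^ 3) (P1 n β x) (C * (B + 1) * (n * u ^ 5)) := by
  obtain ⟨C, n1, hC, hn1, h1⟩ := H758.hinc hβ.le h2 hL
  obtain ⟨n2, hn2, h3⟩ := ev_pow 8
  refine ⟨1024 * C + 1, max n1 n2, by positivity, by positivity, ?_⟩
  intro n hn u B hu0 hu1 hB hbx x hx hx4
  have hn1' : n1 ≤ n := (le_max_left _ _).trans hn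
  have hn2' : n2 ≤ n := (le_max_right _ _).trans hn
  have hnR1 : (1 : ℝ) ≤ n := by exact_mod_cast (hn1.trans_le hn1')
  have hnR : (0 : ℝ) < n := by linarith
  have hp : (0 : ℝ) < (n : ℝ) ^ (-(1 / 6) : ℝ) := Real.rpow_pos_of_pos hnR _
  have hu : 0 < u := by linarith
  have hx8 : 8 * u ≤ (n : ℝ) ^ (-(21 / 200) : ℝ) :=
    (mul_le_mul_of_nonneg_left hu1 (by norm_num)).trans (h3 n hn2')
  have h21 : (n : ℝ) ^ (-(21 / 200) : ℝ) ≤ (n : ℝ) ^ (-(1 / 10) : ℝ) :=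
    Real.rpow_le_rpow_of_exponent_le hnR1 (by norm_num)
  have hap := H645x.ap_of_box (n := n) (C := C) (D := B) (x := x) (y := 4 * u) hβ hu hC.le hbx
    (fun a b ha hab hb => h1 n hn1' a b (by linarith) hab (by linarith)) hx hx4 le_rfl
  have hN : 0 ≤ (n : ℝ) * u ^ 5 := by positivity
  have hE : (B + 1024 * C) * (n * u ^ 5) ≤ (1024 * C + 1) * (B + 1) * (n * u ^ 5) := by
    refine mul_le_mul_of_nonneg_right ?_ hN
    have : 0 ≤ C * B := by positivity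
    nlinarith
  exact ⟨fun V h4 h5 => by linarith [hap.lo V h4 h5], fun V h4 h5 => by linarith [hap.up V h4 h5]⟩

/-- the field on the first level -/
theorem cgX (hβ : 0 < β) (h2 : Ex2Out β) (hL : LStar β) (S : ℝ) {c : ℝ} (hc : 0 < c) :
    ∃ ε K0 : ℝ, ∃ n0 : ℕ, 0 < ε ∧ 2 ≤ K0 ∧ 0 < n0 ∧ ∀ n : ℕ, n0 ≤ n → ∀ u : ℝ,
      K0 * (n : ℝ) ^ (-(1 / 6) : ℝ) ≤ u → u ≤ (n : ℝ) ^ (-(11 / 100) : ℝ) → ∀ x : ℝ,
      u / 2 ≤ x → x ≤ u → ∀ V : ℝ, 0 ≤ V → V ≤ ε * u ^ 3 →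
        CG n β x S V (c * (n * u ^ 5)) := by
  obtain ⟨ε, K0, n1, hε, hK0, h1⟩ := H97.gen_c hβ (H97.cg hβ h2 hL) S hc
  obtain ⟨n2, hn2, h3⟩ := ev_pow 8
  refine ⟨ε / 8, 2 * K0, max (max n1 n2) 1, by positivity, by linarith, by positivity, ?_⟩
  intro n hn u hu0 hu1 x hx hxu V hV0 hV
  have hn1' : n1 ≤ n := (le_max_left _ _).trans ((le_max_left _ _).trans hn)
  have hn2' : n2 ≤ n := (le_max_right _ _).trans ((le_max_left _ _).trans hn)
  have hn0 : 1 ≤ n := (le_max_right _ _).trans hn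
  have hnR : (0 : ℝ) < n := by exact_mod_cast hn0
  have hp : (0 : ℝ) < (n : ℝ) ^ (-(1 / 6) : ℝ) := Real.rpow_pos_of_pos hnR _
  have hKp : 0 < K0 * (n : ℝ) ^ (-(1 / 6) : ℝ) := by positivity
  have hu : 0 < u := by linarith
  have hx0 : 0 < x := by linarith
  have hx8 : 8 * u ≤ (n : ℝ) ^ (-(21 / 200) : ℝ) :=
    (mul_le_mul_of_nonneg_left hu1 (by norm_num)).trans (h3 n hn2')
  intro K m b hm hK hm1 hmx hb htv hb1
  have hw1 : rt (sgl 1 V) 1 ^ 2 = V := by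
    unfold rt sgl
    rw [if_pos rfl, Real.sq_sqrt hV0]
  have hVx : V ≤ ε * x ^ 3 := by
    have h4 : (u / 2) ^ 3 ≤ x ^ 3 := pow_le_pow_left₀ (by positivity) hx 3
    have h5 := mul_le_mul_of_nonneg_left h4 hε.le
    have e1 : ε * (u / 2) ^ 3 = ε / 8 * u ^ 3 := by ring
    linarith
  have h4 := h1 n hn1' x K m b (rt (sgl 1 V)) (by linarith) (by linarith) (by omega) hm hm1
    (hmx K (by omega) le_rfl) (by rw [hb1]; exact le_of_eq (by ring)) htv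
    (fun j hj _ => by
      unfold rt sgl
      rw [if_neg (by omega), Real.sqrt_zero]) (by rw [hw1]; exact hVx)
  rw [hw1] at h4
  have e0 : rt (fun _ => (0 : ℝ)) = fun _ => (0 : ℝ) := by
    funext j
    unfold rt
    exact Real.sqrt_zero
  unfold GV
  rw [e0]
  have h5 : c * (n * x ^ 5) ≤ c * (n * u ^ 5) := by gcongr
  have e1 : (n : ℝ) / β / 2 * V = n / (2 * β) * V := by
    field_simp
  rw [e1]
  linarith

end Vale.Agent.P146.H437
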