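import Vale.Agent.P146.H437.ApE
import Vale.Agent.P146.H985.S3e
import Vale.Agent.P146.H94.Box

/-!
# P146, lower half: the hypothesis `hD` of `s3_block`, `s3_psi` (helper437)

`rayN`, `rayU`: the exponents of the plain laws `psiN`, `psiU` multiplied by `1 + Δ`; the cost is at
most `(C - psi) n u⁵` with the absolute constant `C` of `puUp`.  `psiN_ge_box`, `psiU_ge_box`: lower
bounds in the a priori box.
-/

open MeasureTheory ProbabilityTheory Set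

namespace Vale.Agent.P146.H437

open Vale.Agent.P157 Vale.Agent.P157.Lv Vale.Agent.P157.Lv.Sy
open Vale.Agent.P146.H425 Vale.Agent.P146.H325 Vale.Agent.P146.H93 Vale.Agent.P146.U
open Vale.Agent.P146.H332 Vale.Agent.P146.R1 Vale.Agent.P146.H479 Vale.Agent.P146.H560
open Vale.Agent.P146.H758 (Pu Pu_zero tv Ex2 sandwich)
open Vale.Agent.P146.H985.S3 (ray em_ray)

set_option linter.unusedSectionVars false

variable {n K : ℕ} {β κ τ T1 u v w wa S r C E E0 C1 a z T Δ B D : ℝ} {m b ω : ℕ → ℝ}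

/-- the total variance of the bonds -/
lemma tv_bN (hn : 0 < n) (hS : S * u ^ 2 ≤ 1) (hT1 : 0 ≤ T1) (hT : T1 ≤ T) (hTS : T ≤ S) :
    tv 4 (bN n β T1 u S T) = β ^ 2 / n := by
  have hn' : (0 : ℝ) < n := by exact_mod_cast hn
  have u2 : 0 ≤ u ^ 2 := sq_nonneg u
  have key : ∀ x : ℝ, 0 ≤ x → (β / √n * √x) ^ 2 = β ^ 2 / n * x := by
    intro x hx
    rw [mul_pow, div_pow, Real.sq_sqrt hn'.le, Real.sq_sqrt hx]
  unfold tv
  simp only [Finset.sum_range_succ, Finset.range_zero, Finset.sum_empty, zero_add]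
  show (β / √n * √(1 - S * u ^ 2)) ^ 2 + (β / √n * √((S - T) * u ^ 2)) ^ 2 +
    (β / √n * √((T - T1) * u ^ 2)) ^ 2 + (β / √n * √(T1 * u ^ 2)) ^ 2 = β ^ 2 / n
  rw [key _ (by linarith), key _ (mul_nonneg (by linarith) u2),
    key _ (mul_nonneg (by linarith) u2), key _ (mul_nonneg hT1 u2)]
  ring

lemma tv_wN (hu : 0 < u) (ha : 0 ≤ wa) (hw : 0 ≤ w) : tv 4 (wN u wa w) = (wa + w) * u ^ 3 := by
  unfold tv
  simp only [Finset.sum_range_succ, Finset.range_zero, Finset.sum_empty, zero_add]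
  show (0 : ℝ) ^ 2 + √(wa * u ^ 3) ^ 2 + √(w * u ^ 3) ^ 2 + 0 ^ 2 = (wa + w) * u ^ 3
  rw [Real.sq_sqrt (by positivity), Real.sq_sqrt (by positivity)]
  ring

/-- the exponents multiplied by `1 + Δ` -/
lemma ex2_ray (hK : 1 ≤ K) (hm : Em K m) (hΔ : 0 ≤ Δ) {Y : ℝ} (hY : (1 + Δ) * m K ≤ Y)
    (hY1 : Y ≤ 1) : Ex2 K (ray K (1 + Δ) m) (m 1) Y where
  em := em_ray hm (by linarith) (hY.trans hY1)
  K1 := hK
  y0 := hm.pos
  Y1 := hY1
  ge := by
    unfold ray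
    rw [if_pos hK]
    have := hm.pos
    nlinarith
  le := by
    unfold ray
    rw [if_pos le_rfl]
    exact hY

/-- **The cost of the factor `1 + Δ`**, any law. -/
theorem ray_le (hβ : 0 < β) (hu : 0 < u) (hK : 1 ≤ K) (hm : Em K m) (hb : tv K b = β ^ 2 / n)
    (hΔ : 0 ≤ Δ) {c : ℝ} (hmc : (1 + Δ) * m K ≤ c * u) (hc1 : 1 ≤ c) (hc8 : c ≤ 8)
    (h8 : 8 * u ≤ 1) (htv : tv K ω ≤ 64 * u ^ 3) (hP : PuUp n β C u)
    (hlo : P1 n β (51 / 100 * u) + n / (2 * β) * tv K ω - D * (n * u ^ 5) ≤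
      (skS n K m b ω).fe) :
    (skS n K (ray K (1 + Δ) m) b ω).fe - (skS n K m b ω).fe ≤ (C + D) * (n * u ^ 5) := by
  have hc : c * u ≤ 1 := (mul_le_mul_of_nonneg_right hc8 hu.le).trans h8
  have h1 := (sandwich (n := n) (w := ω) (ex2_ray hK hm hΔ hmc hc) hβ.le hb).2
  have h2 := hP c (tv K ω) hc1 hc8 (H758.tv_nonneg K ω) htv
  have e : (C + D) * (n * u ^ 5) = C * (n * u ^ 5) + D * (n * u ^ 5) := by ring
  rw [e]
  linarith

/-- the law of the grid in the form of `ray_le` -/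
theorem rayN (hn : 0 < n) (hβ : 0 < β) (hu : 0 < u) (hS : S * u ^ 2 ≤ 1) (hT1 : 0 ≤ T1)
    (hT : T1 ≤ T) (hTS : T ≤ S) (ha : 51 / 100 ≤ a) (hav : a ≤ v) (hvz : v ≤ z) (hz1 : 1 ≤ z)
    (hΔ : 0 ≤ Δ) (hz : (1 + Δ) * z ≤ 8) (h8 : 8 * u ≤ 1) (hwa : 0 ≤ wa) (hw : 0 ≤ w)
    (hw1 : wa + w ≤ 64) (hP : PuUp n β C u) (hlo : -D ≤ psiN n β T1 u S a v z T wa w) :
    (skS n 4 (ray 4 (1 + Δ) (mN u a v z)) (bN n β T1 u S T) (wN u wa w)).fe -
      (skS n 4 (mN u a v z) (bN n β T1 u S T) (wN u wa w)).fe ≤ (C + D) * (n * u ^ 5) := by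
  have hn' : (0 : ℝ) < n := by exact_mod_cast hn
  have hzu : z * u ≤ 1 := by
    have h1 : z ≤ (1 + Δ) * z := by nlinarith
    exact (mul_le_mul_of_nonneg_right (h1.trans hz) hu.le).trans h8
  have ht := tv_wN hu hwa hw
  refine ray_le hβ hu (by norm_num) (em_mN hu ha hav hvz hzu) (tv_bN hn hS hT1 hT hTS) hΔ
    (c := (1 + Δ) * z) (le_of_eq ?_) (by nlinarith) hz h8 ?_ hP ?_
  · show (1 + Δ) * (z * u) = (1 + Δ) * z * u
    ring
  · rw [ht]
    exact mul_le_mul_of_nonneg_right hw1 (by positivity)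
  · unfold psiN at hlo
    rw [le_div_iff₀ (by positivity)] at hlo
    rw [ht]
    have e : (n : ℝ) * ((wa + w) * u ^ 3) / (2 * β) = n / (2 * β) * ((wa + w) * u ^ 3) := by ring
    rw [e] at hlo
    linarith

/-- the law of three levels in the form of `ray_le` -/
theorem rayU (hn : 0 < n) (hβ : 0 < β) (hu : 0 < u) (hS : S * u ^ 2 ≤ 1) (hT1 : 0 ≤ T1)
    (hT1S : T1 ≤ S) (hv : 51 / 100 ≤ v) (hv' : v ≤ 1 + κ) (hκ : 0 ≤ κ)
    (hΔ : 0 ≤ Δ) (hz : (1 + Δ) * (1 + κ) ≤ 8) (h8 : 8 * u ≤ 1) (hw : w ∈ Icc 0 64)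
    (hP : PuUp n β C u) (hlo : -D ≤ psiU n β κ T1 u S v w) :
    (skS n 3 (ray 3 (1 + Δ) (mU κ u v)) (bU n β T1 u S) (wU u w)).fe -
      (skS n 3 (mU κ u v) (bU n β T1 u S) (wU u w)).fe ≤ (C + D) * (n * u ^ 5) := by
  have hn' : (0 : ℝ) < n := by exact_mod_cast hn
  have hzu : (1 + κ) * u ≤ 1 := by
    have h1 : 1 + κ ≤ (1 + Δ) * (1 + κ) := by nlinarith
    exact (mul_le_mul_of_nonneg_right (h1.trans hz) hu.le).trans h8
  have ht := tv_wU hu hw.1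
  refine ray_le hβ hu (by norm_num) (em_mU hu hv hv' hzu) (tv_bU hn hS hT1 hT1S) hΔ
    (c := (1 + Δ) * (1 + κ)) (le_of_eq ?_) (by nlinarith) hz h8 ?_ hP ?_
  · show (1 + Δ) * ((1 + κ) * u) = (1 + Δ) * (1 + κ) * u
    ring
  · rw [ht]
    exact mul_le_mul_of_nonneg_right hw.2 (by positivity)
  · unfold psiU at hlo
    rw [le_div_iff₀ (by positivity)] at hlo
    rw [ht]
    have e : (n : ℝ) * (w * u ^ 3) / (2 * β) = n / (2 * β) * (w * u ^ 3) := by ring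
    rw [e] at hlo
    linarith

/-! ### lower bounds in the box -/

/-- the lower side of the box at the exponent `0.51 u` -/
def LoB (n : ℕ) (β B u : ℝ) : Prop := ∀ V : ℝ, 0 ≤ V → V ≤ 8 * u ^ 3 →
  P1 n β (51 / 100 * u) + n / (2 * β) * V - B * (n * u ^ 5) ≤ Pu n β (51 / 100 * u) V

lemma loB_of (hu : 0 < u) (h : ∀ v V, u / 2 ≤ v → v ≤ 4 * u → 0 ≤ V → V ≤ 8 * u ^ 3 →
    |Pu n β v V - P1 n β v - n / (2 * β) * V| ≤ B * (n * u ^ 5)) : LoB n β B u := by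
  intro V hV0 hV
  have := (abs_le.1 (h (51 / 100 * u) V (by linarith) (by linarith) hV0 hV)).1
  linarith

lemma loB_box (hu : 0 < u) (h : H94.Box n β B u) : LoB n β B u := by
  intro V hV0 hV
  have := (abs_le.1 (h (51 / 100 * u) ⟨by linarith, by linarith⟩ V ⟨hV0, hV⟩)).1
  unfold H94.dv at this
  have e : (n : ℝ) * V / (2 * β) = n / (2 * β) * V := by ring
  rw [e] at this
  show P1 n β (51 / 100 * u) + n / (2 * β) * V - B * (n * u ^ 5) ≤ H94.PF n β (51 / 100 * u) V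
  linarith

/-- **The grid laws from below, in the box.** -/
theorem psiN_ge_box (hn : 0 < n) (hβ : 0 < β) (hu : 0 < u) (hS : S * u ^ 2 ≤ 1) (hT1 : 0 ≤ T1)
    (hT : T1 ≤ T) (hTS : T ≤ S) (ha : 51 / 100 ≤ a) (hav : a ≤ v) (hvz : v ≤ z)
    (h1 : z * u ≤ 1) (hwa : 0 ≤ wa) (hw : 0 ≤ w) (hw1 : wa + w ≤ 8) (hB : LoB n β B u) :
    -B ≤ psiN n β T1 u S a v z T wa w := by
  have hn' : (0 : ℝ) < n := by exact_mod_cast hn
  have hE := em_mN hu ha hav hvz h1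
  have hx : Ex2 4 (mN u a v z) (51 / 100 * u) 1 := ⟨hE, by norm_num, by positivity, le_rfl,
    le_rfl, h1⟩
  have ht := tv_wN hu hwa hw
  have h2 := (sandwich (n := n) (w := wN u wa w) hx hβ.le (tv_bN hn hS hT1 hT hTS)).1
  rw [ht] at h2
  have h3 := hB ((wa + w) * u ^ 3) (by positivity)
    (mul_le_mul_of_nonneg_right hw1 (by positivity))
  unfold psiN
  rw [le_div_iff₀ (by positivity)]
  have e : (n : ℝ) * ((wa + w) * u ^ 3) / (2 * β) = n / (2 * β) * ((wa + w) * u ^ 3) := by ring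
  rw [e]
  linarith

/-- **The laws of three levels from below, in the box.** -/
theorem psiU_ge_box (hn : 0 < n) (hβ : 0 < β) (hu : 0 < u) (hS : S * u ^ 2 ≤ 1) (hT1 : 0 ≤ T1)
    (hT1S : T1 ≤ S) (hv : 51 / 100 ≤ v) (hv' : v ≤ 1 + κ) (h1 : (1 + κ) * u ≤ 1)
    (hw : w ∈ Icc 0 8) (hB : LoB n β B u) : -B ≤ psiU n β κ T1 u S v w := by
  have hn' : (0 : ℝ) < n := by exact_mod_cast hn
  have ht := tv_wU hu hw.1
  have h2 := (sandwich (n := n) (w := wU u w) (ex2_mU (Y := 1) hu hv hv' h1 h1 le_rfl)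
    hβ.le (tv_bU hn hS hT1 hT1S)).1
  rw [ht] at h2
  have h3 := hB (w * u ^ 3) (by have := hw.1; positivity)
    (mul_le_mul_of_nonneg_right hw.2 (by positivity))
  unfold psiU
  rw [le_div_iff₀ (by positivity)]
  have e : (n : ℝ) * (w * u ^ 3) / (2 * β) = n / (2 * β) * (w * u ^ 3) := by ring
  rw [e]
  linarith

end Vale.Agent.P146.H437
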