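import Vale.Agent.P146.H437.Grid
import Vale.Agent.P146.H758.Num
import Vale.Agent.P146.H645x.BoxB
import Vale.Agent.P146.H97.CG1

/-!
# P146, lower half: the a priori energies with an absolute constant (helper437)

* `puUp`: `Pu n β (c u) V ≤ P1 n β (0.51 u) + n / (2 β) V + C (n u⁵)` for `1 ≤ c ≤ 8`,
  `0 ≤ V ≤ 64 u³`, `n^(-1/6) ≤ u ≤ n^(-11/100)`;
* `upE`: `psiU n β (1 + κ) τ u S (1 + (1 + κ)) w ≤ E0`;
* `apE_of`: `ApE` from `upE` and a lower bound of `psiU` at the fields of `W`.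
-/

open MeasureTheory ProbabilityTheory Set

namespace Vale.Agent.P146.H437

open Vale.Agent.P157 Vale.Agent.P157.Lv Vale.Agent.P157.Lv.Sy
open Vale.Agent.P146.H425 Vale.Agent.P146.H325 Vale.Agent.P146.H93 Vale.Agent.P146.U
open Vale.Agent.P146.H332 Vale.Agent.P146.R1 Vale.Agent.P146.H479 Vale.Agent.P146.H560
open Vale.Agent.P146.H758 (Pu Pu_zero tv Ex2 sandwich)

set_option linter.unusedSectionVars false

/-- for large `n` a fixed multiple of `n^(-11/100)` is at most `n^(-21/200)` -/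
lemma ev_pow (M : ℝ) : ∃ n0 : ℕ, 0 < n0 ∧ ∀ n : ℕ, n0 ≤ n →
    M * (n : ℝ) ^ (-(11 / 100) : ℝ) ≤ (n : ℝ) ^ (-(21 / 200) : ℝ) := by
  have h1 : Filter.Tendsto (fun n : ℕ => (n : ℝ) ^ (1 / 200 : ℝ)) Filter.atTop Filter.atTop :=
    (tendsto_rpow_atTop (by norm_num)).comp tendsto_natCast_atTop_atTop
  obtain ⟨n0, h0⟩ := Filter.eventually_atTop.1 (h1.eventually_ge_atTop M)
  refine ⟨max n0 1, by positivity, fun n hn => ?_⟩
  have hn1 : 1 ≤ n := (le_max_right _ _).trans hn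
  have hnR : (0 : ℝ) < n := by exact_mod_cast hn1
  have h2 := h0 n ((le_max_left _ _).trans hn)
  calc M * (n : ℝ) ^ (-(11 / 100) : ℝ) ≤ (n : ℝ) ^ (1 / 200 : ℝ) * (n : ℝ) ^ (-(11 / 100) : ℝ) :=
        mul_le_mul_of_nonneg_right h2 (by positivity)
    _ = (n : ℝ) ^ (-(21 / 200) : ℝ) := by
        rw [← Real.rpow_add hnR]
        norm_num

/-- for large `n` the scale `u ≤ n^(-11/100)` satisfies `M u ≤ 1` and `M u² ≤ 1` -/
lemma ev_one (M : ℝ) : ∃ n0 : ℕ, 0 < n0 ∧ ∀ n : ℕ, n0 ≤ n → ∀ u : ℝ, 0 < u →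
    u ≤ (n : ℝ) ^ (-(11 / 100) : ℝ) → M * u ≤ 1 ∧ M * u ^ 2 ≤ 1 := by
  obtain ⟨n0, h0, h⟩ := ev_pow (max M 1)
  refine ⟨n0, h0, fun n hn u hu hu1 => ?_⟩
  have h1 := h n hn
  have hn1 : (1 : ℝ) ≤ n := by exact_mod_cast (h0.trans_le hn)
  have h2 : (n : ℝ) ^ (-(21 / 200) : ℝ) ≤ 1 :=
    Real.rpow_le_one_of_one_le_of_nonpos hn1 (by norm_num)
  have hM : 1 ≤ max M 1 := le_max_right _ _
  have h3 : max M 1 * u ≤ 1 := by
    have := mul_le_mul_of_nonneg_left hu1 (zero_le_one.trans hM)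
    linarith
  have h4 : M * u ≤ max M 1 * u := mul_le_mul_of_nonneg_right (le_max_left _ _) hu.le
  have h5 : u ≤ 1 := by nlinarith
  refine ⟨h4.trans h3, ?_⟩
  have h6 : M * u ^ 2 = (M * u) * u := by ring
  rw [h6]
  nlinarith

/-- the pure laws with a field at the scales `c u`, relative to `P1 (0.51 u)` -/
def PuUp (n : ℕ) (β C u : ℝ) : Prop := ∀ c V : ℝ, 1 ≤ c → c ≤ 8 → 0 ≤ V → V ≤ 64 * u ^ 3 →
  Pu n β (c * u) V ≤ P1 n β (51 / 100 * u) + n / (2 * β) * V + C * (n * u ^ 5)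

/-- **The pure laws with a field, from above, with an absolute constant.** -/
theorem puUp {β : ℝ} (hβ : 0 < β) (h2 : Ex2Out β) (hL : LStar β) (hG : H97.CG β) :
    ∃ C : ℝ, ∃ n0 : ℕ, 0 < C ∧ 0 < n0 ∧ ∀ n : ℕ, n0 ≤ n → ∀ u : ℝ,
      (n : ℝ) ^ (-(1 / 6) : ℝ) ≤ u → u ≤ (n : ℝ) ^ (-(11 / 100) : ℝ) → PuUp n β C u := by
  obtain ⟨C1, n1, hC1, h1⟩ := H97.pure_C hβ hG
  obtain ⟨C2, n2, hC2, hn2, h2⟩ := H758.hinc hβ.le h2 hL
  obtain ⟨n3, hn3, h3⟩ := ev_pow 8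
  obtain ⟨n4, hn4, h4⟩ := ev_one 8
  refine ⟨32768 * (C1 + 2 * C2), max (max n1 n2) (max n3 n4), by positivity, by positivity, ?_⟩
  intro n hn u hu0 hu1 c V hc1 hc8 hV0 hV
  have hn1 : n1 ≤ n := (le_max_left _ _).trans ((le_max_left _ _).trans hn)
  have hn2' : n2 ≤ n := (le_max_right _ _).trans ((le_max_left _ _).trans hn)
  have hn3' : n3 ≤ n := (le_max_left _ _).trans ((le_max_right _ _).trans hn)
  have hn4' : n4 ≤ n := (le_max_right _ _).trans ((le_max_right _ _).trans hn)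
  have hnR1 : (1 : ℝ) ≤ n := by exact_mod_cast (hn2.trans_le hn2')
  have hnR : (0 : ℝ) < n := by linarith
  have hu : 0 < u := (Real.rpow_pos_of_pos hnR _).trans_le hu0
  obtain ⟨hu8, -⟩ := h4 n hn4' u hu hu1
  have hx8 : 8 * u ≤ (n : ℝ) ^ (-(21 / 200) : ℝ) :=
    (mul_le_mul_of_nonneg_left hu1 (by norm_num)).trans (h3 n hn3')
  have h21 : (n : ℝ) ^ (-(21 / 200) : ℝ) ≤ (n : ℝ) ^ (-(1 / 10) : ℝ) :=
    Real.rpow_le_rpow_of_exponent_le hnR1 (by norm_num)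
  have hcu : c * u ≤ 8 * u := mul_le_mul_of_nonneg_right hc8 hu.le
  have huc : u ≤ c * u := by nlinarith
  have hNu : 0 ≤ (n : ℝ) * u ^ 5 := by positivity
  have h8 : (n : ℝ) * (c * u) ^ 5 ≤ 32768 * (n * u ^ 5) := by
    have : (c * u) ^ 5 ≤ (8 * u) ^ 5 := pow_le_pow_left₀ (by positivity) hcu 5
    calc (n : ℝ) * (c * u) ^ 5 ≤ n * (8 * u) ^ 5 := mul_le_mul_of_nonneg_left this hnR.le
      _ = 32768 * (n * u ^ 5) := by ring
  have k1 := h1 n hn1 (c * u) V (hu0.trans huc) (hcu.trans hx8) hV0 (hV.trans (by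
    have : u ^ 3 ≤ (c * u) ^ 3 := pow_le_pow_left₀ hu.le huc 3
    linarith))
  have k2 := h2 n hn2' u (c * u) hu0 huc ((hcu.trans hx8).trans h21)
  have k3 := h2 n hn2' u (2 * u) hu0 (by linarith) ((by linarith : 2 * u ≤ 8 * u).trans
    (hx8.trans h21))
  -- from `u` to `0.51 u` by convexity
  have k4 := H645x.Pu_conv (n := n) (β := β) (a := 100 / 149) (c := 49 / 149)
    (x := 51 / 100 * u) (y := 2 * u) (by positivity) (by linarith) (by positivity) (by linarith)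
    (by norm_num) (by norm_num) (by norm_num) 0
  have e : 100 / 149 * (51 / 100 * u) + 49 / 149 * (2 * u) = u := by ring
  rw [e, Pu_zero hu (by linarith), Pu_zero (by positivity) (by linarith),
    Pu_zero (by positivity) (by linarith)] at k4
  have z1 : ∀ x : ℝ, W x 1 (Fsk n β) 0 = P1 n β x := fun x => rfl
  rw [z1, z1, z1] at k4
  have k5 : C2 * (n * (2 * u) ^ 5) = 32 * (C2 * (n * u ^ 5)) := by ring
  have k6 : C1 * (n * (c * u) ^ 5) ≤ 32768 * (C1 * (n * u ^ 5)) := by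
    have := mul_le_mul_of_nonneg_left h8 hC1.le
    linarith
  have k7 : C2 * (n * (c * u) ^ 5) ≤ 32768 * (C2 * (n * u ^ 5)) := by
    have := mul_le_mul_of_nonneg_left h8 hC2.le
    linarith
  have k8 : 0 ≤ C2 * (n * u ^ 5) := by positivity
  have e2 : 32768 * (C1 + 2 * C2) * (n * u ^ 5) = 32768 * (C1 * (n * u ^ 5)) +
    65536 * (C2 * (n * u ^ 5)) := by ring
  rw [e2]
  linarith

variable {n : ℕ} {β κ τ T1 u v w S r C E E0 C1 a z T : ℝ}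

/-- the total variance of the bonds -/
lemma tv_bU (hn : 0 < n) (hS : S * u ^ 2 ≤ 1) (hT1 : 0 ≤ T1) (hT1S : T1 ≤ S) :
    tv 3 (bU n β T1 u S) = β ^ 2 / n := by
  have hn' : (0 : ℝ) < n := by exact_mod_cast hn
  have u2 : 0 ≤ u ^ 2 := sq_nonneg u
  have key : ∀ x : ℝ, 0 ≤ x → (β / √n * √x) ^ 2 = β ^ 2 / n * x := by
    intro x hx
    rw [mul_pow, div_pow, Real.sq_sqrt hn'.le, Real.sq_sqrt hx]
  unfold tv
  simp only [Finset.sum_range_succ, Finset.range_zero, Finset.sum_empty, zero_add]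
  show (β / √n * √(1 - S * u ^ 2)) ^ 2 + (β / √n * √((S - T1) * u ^ 2)) ^ 2 +
    (β / √n * √(T1 * u ^ 2)) ^ 2 = β ^ 2 / n
  rw [key _ (by linarith), key _ (mul_nonneg (by linarith) u2), key _ (mul_nonneg hT1 u2)]
  ring

lemma tv_wU (hu : 0 < u) (hw : 0 ≤ w) : tv 3 (wU u w) = w * u ^ 3 := by
  unfold tv
  simp only [Finset.sum_range_succ, Finset.range_zero, Finset.sum_empty, zero_add]
  show (0 : ℝ) ^ 2 + √(w * u ^ 3) ^ 2 + 0 ^ 2 = w * u ^ 3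
  rw [Real.sq_sqrt (by positivity)]
  ring

/-- the exponents of the law of three levels -/
lemma ex2_mU (hu : 0 < u) (hv : 51 / 100 ≤ v) (hv' : v ≤ 1 + κ) (h1 : (1 + κ) * u ≤ 1) {Y : ℝ}
    (hY : (1 + κ) * u ≤ Y) (hY1 : Y ≤ 1) : Ex2 3 (mU κ u v) (51 / 100 * u) Y where
  em := em_mU hu hv hv' h1
  K1 := by norm_num
  y0 := by positivity
  Y1 := hY1
  ge := le_rfl
  le := hY

/-- **The a priori upper bound of `psiU`.** -/
theorem psiU_le (hn : 0 < n) (hβ : 0 < β) (hu : 0 < u) (hS : S * u ^ 2 ≤ 1) (hT1 : 0 ≤ T1)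
    (hT1S : T1 ≤ S) (hκ : 0 ≤ κ) (hκ1 : 1 + κ ≤ 8) (h8 : 8 * u ≤ 1) (hv : 51 / 100 ≤ v)
    (hv' : v ≤ 1 + κ) (hw : w ∈ Icc 0 64) (hP : PuUp n β C u) :
    psiU n β κ T1 u S v w ≤ C := by
  have hn' : (0 : ℝ) < n := by exact_mod_cast hn
  have h1 : (1 + κ) * u ≤ 1 := (mul_le_mul_of_nonneg_right hκ1 hu.le).trans h8
  have h2 := (sandwich (n := n) (w := wU u w) (ex2_mU (Y := (1 + κ) * u) hu hv hv' h1 le_rfl h1)
    hβ.le (tv_bU hn hS hT1 hT1S)).2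
  rw [tv_wU hu hw.1] at h2
  have h3 := hP (1 + κ) (w * u ^ 3) (by linarith) hκ1 (by have := hw.1; positivity)
    (mul_le_mul_of_nonneg_right hw.2 (by positivity))
  unfold psiU
  rw [div_le_iff₀ (by positivity)]
  have e : (n : ℝ) * (w * u ^ 3) / (2 * β) = n / (2 * β) * (w * u ^ 3) := by ring
  rw [e]
  linarith

/-- **UpE**: one constant `E0 = C(β)` for the energies with all the exponents at `2 + κ`. -/
theorem upE (hβ : 0 < β) (h2 : Ex2Out β) (hL : LStar β) (hG : H97.CG β) :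
    ∃ E0 : ℝ, 0 ≤ E0 ∧ ∀ S : ℝ, ∃ n0 : ℕ, ∀ n : ℕ, n0 ≤ n → ∀ κ τ u w : ℝ, 0 < κ → κ ≤ 1 / 200 →
      0 < τ → τ ≤ S → (n : ℝ) ^ (-(1 / 6) : ℝ) ≤ u → u ≤ (n : ℝ) ^ (-(11 / 100) : ℝ) →
      w ∈ Icc (0 : ℝ) 1 → psiU n β (1 + κ) τ u S (1 + (1 + κ)) w ≤ E0 := by
  obtain ⟨C, n1, hC, hn1, h1⟩ := puUp hβ h2 hL hG
  refine ⟨C, hC.le, fun S => ?_⟩
  obtain ⟨n2, hn2, h3⟩ := ev_one (max S 8)
  refine ⟨max n1 n2, fun n hn κ τ u w hκ hκ1 hτ hτS hu0 hu1 hw => ?_⟩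
  have hn1' : n1 ≤ n := (le_max_left _ _).trans hn
  have hn2' : n2 ≤ n := (le_max_right _ _).trans hn
  have hn0 : 0 < n := hn1.trans_le hn1'
  have hnR : (0 : ℝ) < n := by exact_mod_cast hn0
  have hu : 0 < u := (Real.rpow_pos_of_pos hnR _).trans_le hu0
  obtain ⟨hu8, hu8'⟩ := h3 n hn2' u hu hu1
  have hS : S * u ^ 2 ≤ 1 :=
    (mul_le_mul_of_nonneg_right (le_max_left _ _) (sq_nonneg u)).trans hu8'
  have h8 : 8 * u ≤ 1 := (mul_le_mul_of_nonneg_right (le_max_right _ _) hu.le).trans hu8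
  exact psiU_le hn0 hβ hu hS hτ.le hτS (by linarith) (by linarith) h8 (by linarith) le_rfl
    ⟨hw.1, hw.2.trans (by norm_num)⟩ (h1 n hn1' u hu0 hu1)

/-- `ApE` from the upper bound and a lower bound at the fields of `W` -/
lemma apE_of {W : Set ℝ} (h : ∀ w ∈ W, psiU n β (1 + κ) τ u S (1 + (1 + κ)) w ≤ E0)
    (hlo : ∀ w ∈ W, -C1 ≤ psiU n β κ τ u S (1 + κ) w) : ApE n β κ τ u S (E0 + C1) W :=
  fun w hw => by linarith [h w hw, hlo w hw]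

/-! ### lower bounds -/

/-- without field the law is at least the pure law at the smallest exponent -/
theorem psiU_nonneg (hn : 0 < n) (hβ : 0 < β) (hu : 0 < u) (hS : S * u ^ 2 ≤ 1) (hT1 : 0 ≤ T1)
    (hT1S : T1 ≤ S) (h1 : (1 + κ) * u ≤ 1) (hv : 51 / 100 ≤ v) (hv' : v ≤ 1 + κ) :
    0 ≤ psiU n β κ T1 u S v 0 := by
  have hn' : (0 : ℝ) < n := by exact_mod_cast hn
  have hx1 : 51 / 100 * u ≤ 1 := (mul_le_mul_of_nonneg_right (hv.trans hv') hu.le).trans h1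
  have h2 := (sandwich (n := n) (w := wU u 0) (ex2_mU (Y := (1 + κ) * u) hu hv hv' h1 le_rfl h1)
    hβ.le (tv_bU hn hS hT1 hT1S)).1
  rw [tv_wU hu le_rfl, zero_mul, Pu_zero (by positivity) hx1] at h2
  have z1 : ∀ x : ℝ, W x 1 (Fsk n β) 0 = P1 n β x := fun x => rfl
  rw [z1] at h2
  unfold psiU
  rw [zero_mul, mul_zero, zero_div, sub_zero]
  exact div_nonneg (by linarith) (by positivity)

/-- **The grid laws from below** (upper rows): fields on the level `3` or `2`, shares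
`T ∈ [τ, S]`, from the lower bound of `psiU` at the exponent `1 + κ` and the energy `E`. -/
theorem psiN_ge (hn : 0 < n) (hβ : 0 < β) (hu : 0 < u) (hκ : 0 < κ)
    (h2 : (1 + (1 + κ)) * u ≤ 1) (hT1 : 0 ≤ T1) (hτ1 : T1 ≤ τ) (hr : 0 ≤ r) (hrκ : r ≤ κ)
    (hT : T ∈ Icc τ S) (hw : 0 ≤ w)
    (hE : psiU n β (1 + κ) τ u S (1 + (1 + κ)) w ≤ psiU n β κ τ u S (1 + κ) w + E)
    (hlo : -C1 ≤ psiU n β κ τ u S (1 + κ) w) :
    -(C1 + r * E) ≤ psiN n β T1 u S (1 + κ - r) (1 + κ) (1 + κ) T 0 w ∧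
      -(C1 + r * E) ≤ psiN n β T1 u S (1 + κ - r) (1 + κ) (1 + κ) T w 0 := by
  have h1 : (1 + κ) * u ≤ 1 := by nlinarith
  have ha : 51 / 100 ≤ 1 + κ - r := by linarith
  have haz : 1 + κ - r ≤ 1 + κ := by linarith
  have k1 : psiN n β T1 u S (1 + κ - r) (1 + κ) (1 + κ) τ w 0 =
      psiU n β κ τ u S (1 + κ - r) w := psiN_mg hu ha haz h1 hT1 hτ1
  have k2 := lower_le (β := β) (τ := τ) (S := S) hn hu hκ.le h2 hr hrκ w
  have k3 := mul_le_mul_of_nonneg_left (show psiU n β (1 + κ) τ u S (1 + (1 + κ)) w -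
    psiU n β κ τ u S (1 + κ) w ≤ E by linarith) hr
  have k4 : psiN n β T1 u S (1 + κ - r) (1 + κ) (1 + κ) τ w 0 ≤
      psiN n β T1 u S (1 + κ - r) (1 + κ) (1 + κ) T w 0 :=
    psiN_mono hn hβ.le hu ha haz le_rfl h1 hτ1 hT.1 hT.2 hw le_rfl le_rfl rfl
  have k5 : psiN n β T1 u S (1 + κ - r) (1 + κ) (1 + κ) T w 0 ≤
      psiN n β T1 u S (1 + κ - r) (1 + κ) (1 + κ) T 0 w :=
    psiN_mono hn hβ.le hu ha haz le_rfl h1 (hτ1.trans hT.1) le_rfl hT.2 le_rfl le_rfl hw (by ring)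
  constructor <;> linarith

/-- **The grid laws from below** (lower rows): without field. -/
theorem psiN_nonneg (hn : 0 < n) (hβ : 0 < β) (hu : 0 < u) (hS : S * u ^ 2 ≤ 1) (hτ : 0 ≤ τ)
    (h1 : (1 + κ) * u ≤ 1) (hr : 0 ≤ r) (hrκ : r ≤ κ) (hT : T ∈ Icc τ S) :
    0 ≤ psiN n β τ u S 1 (1 + r) (1 + κ) T 0 0 := by
  have ha : (51 : ℝ) / 100 ≤ 1 := by norm_num
  have hav : (1 : ℝ) ≤ 1 + r := by linarith
  have hvz : 1 + r ≤ 1 + κ := by linarith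
  have k1 : psiN n β τ u S 1 (1 + r) (1 + κ) τ 0 0 = psiU n β κ τ u S 1 0 :=
    psiN_T1 hu ha hav hvz h1
  have k2 : psiN n β τ u S 1 (1 + r) (1 + κ) τ 0 0 ≤ psiN n β τ u S 1 (1 + r) (1 + κ) T 0 0 :=
    psiN_mono hn hβ.le hu ha hav hvz h1 le_rfl hT.1 hT.2 le_rfl le_rfl le_rfl rfl
  have k3 := psiU_nonneg (n := n) (κ := κ) (v := 1) hn hβ hu hS hτ (hT.1.trans hT.2) h1 ha
    (by linarith)
  linarith

end Vale.Agent.P146.H437
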