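import Vale.Agent.P146.H607.X1
import Vale.Agent.P146.H877x.RowW

/-!
# P146, lower half: the constants of the cross rows (helper437)

`crsC`: all the small numbers of the cross law, in the order
`ep → κ1, x → η, t → dd → δ → a → κ2 → (u0, M)`.
-/

open Set Filter Topology

namespace Vale.Agent.P146.H437

open Vale.Agent.P146.H607 (errU)
open Vale.Agent.P146.H877x (eT KV)

/-- small numbers below finitely many positive bounds -/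
lemma pick_pos (a b c : ℝ) (ha : 0 < a) (hb : 0 < b) (hc : 0 < c) :
    ∃ x : ℝ, 0 < x ∧ x ≤ a ∧ x ≤ b ∧ x ≤ c :=
  ⟨min a (min b c), by positivity, min_le_left _ _, (min_le_right _ _).trans (min_le_left _ _),
    (min_le_right _ _).trans (min_le_right _ _)⟩

/-- a factor which makes a product small -/
lemma pick_mul {L c : ℝ} (hL : 0 ≤ L) (hc : 0 < c) : 0 < c / (L + 1) ∧
    ∀ x : ℝ, 0 ≤ x → x ≤ c / (L + 1) → L * x ≤ c := by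
  refine ⟨by positivity, fun x hx0 hx => ?_⟩
  rw [le_div_iff₀ (by positivity)] at hx
  nlinarith

/-- the error of the `L`-side as a function of `u` and `1 / (n u⁶)` -/
noncomputable def errF (β v y δ Q G π₀ tp e₀ : ℝ) (a : ℕ) (p : ℝ × ℝ) : ℝ :=
  β * (2 * v * (5 * Q / (a - 1) + 20 * (G * p.2) / π₀ ^ 2) + 4 * (G * p.2) / π₀ + y * δ * Q) +
    (tp + β * v * (p.2 * p.1 ^ 5)) * √Q + 3 * (e₀ * p.1 + 2 * (p.2 * p.1)) / tp +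
    16 * (e₀ * p.1 ^ 3 + 2 * (p.2 * p.1 ^ 3))

lemma errF_cont (β v y δ Q G π₀ tp e₀ : ℝ) (a : ℕ) :
    Continuous (errF β v y δ Q G π₀ tp e₀ a) := by
  unfold errF
  fun_prop

lemma errU_eq {β v y δ Q G π₀ tp e₀ N u : ℝ} {a : ℕ} (hN : 0 < N) (hu : 0 < u) :
    errU β v y δ Q (G * (1 / (N * u ^ 6))) π₀ tp e₀ N u a =
      errF β v y δ Q G π₀ tp e₀ a (u, 1 / (N * u ^ 6)) := by
  unfold errU errF
  have e1 : β * v / (N * u) = β * v * (1 / (N * u ^ 6) * u ^ 5) := by field_simp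
  have e2 : 2 / (N * u ^ 5) = 2 * (1 / (N * u ^ 6) * u) := by field_simp
  have e3 : 2 / (N * u ^ 3) = 2 * (1 / (N * u ^ 6) * u ^ 3) := by field_simp
  rw [e1, e2, e3]

/-- the error of the `U`-side as a function of `u` and `1 / (n u⁶)` -/
noncomputable def eTF (A Q dd k G π₀ κ2 t w : ℝ) (p : ℝ × ℝ) : ℝ :=
  A * (G * p.2 / π₀ + Q * (p.2 * p.1) / κ2 + (dd * Q ^ 2 + Q ^ 4 * p.1 + k * Q ^ 2 * p.1 ^ 2) / t +
    (t * Q ^ 3 + k * Q * p.1) + p.2 * p.1 ^ 3 + w * Q ^ 2)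

lemma eTF_cont (A Q dd k G π₀ κ2 t w : ℝ) : Continuous (eTF A Q dd k G π₀ κ2 t w) := by
  unfold eTF
  fun_prop

lemma eT_eq {n : ℕ} {Q dd k B0 G π₀ κ2 t w u : ℝ} (hn : 0 < n) (hu : 0 < u) (hπ : 0 < π₀)
    (hκ : 0 < κ2) (ht : 0 < t) :
    eT n (Q * u) (dd * u) (k * u ^ 3) B0 (G * (1 / (n * u ^ 6)) * u ^ 4) (π₀ * u) (κ2 * u ^ 3) t
      (w * u) = eTF (KV ^ 2 * (1000000000000 * B0 ^ 5)) Q dd k G π₀ κ2 t w
        (u, 1 / (n * u ^ 6)) * u ^ 3 := by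
  have hn' : (0 : ℝ) < n := by exact_mod_cast hn
  unfold eT eTF
  have e1 : G * (1 / (n * u ^ 6)) * u ^ 4 / (π₀ * u) = G * (1 / (n * u ^ 6)) / π₀ * u ^ 3 := by
    field_simp
  have e2 : Q * u / (n * (κ2 * u ^ 3)) = Q * (1 / (n * u ^ 6) * u) / κ2 * u ^ 3 := by
    field_simp
  have e3 : (dd * u * (Q * u) ^ 2 + (Q * u) ^ 4 + k * u ^ 3 * (Q * u) ^ 2) / t =
      (dd * Q ^ 2 + Q ^ 4 * u + k * Q ^ 2 * u ^ 2) / t * u ^ 3 := by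
    field_simp
  have e4 : (1 : ℝ) / n = 1 / (n * u ^ 6) * u ^ 3 * u ^ 3 := by field_simp
  rw [e1, e2, e3]
  nth_rewrite 1 [e4]
  ring

/-- the first numbers -/
structure K1 (e kC c P G1 L0 ep κ1 x : ℝ) : Prop where
  ep0 : 0 < ep
  ep1 : ep ≤ 1
  Ge : G1 * ep ≤ c
  k0 : 0 < κ1
  k1 : 5 * κ1 ≤ 1
  kC' : 5 * κ1 ≤ kC
  kL : 5 * L0 * κ1 ≤ c / 2
  kP : 5 * (P + 16) * κ1 ≤ ep / 8
  ke : κ1 ≤ ep / 240
  x0 : 0 < x
  xa : x ≤ ep ^ 2 * e / 400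
  xb : x ≤ ep / 16

lemma ex_K1 {e kC c P G1 L0 : ℝ} (he : 0 < e) (hkC : 0 < kC) (hc : 0 < c) (hP : 0 ≤ P)
    (hG1 : 0 ≤ G1) (hL0 : 0 ≤ L0) : ∃ ep κ1 x : ℝ, K1 e kC c P G1 L0 ep κ1 x := by
  obtain ⟨hep1, hep2⟩ := pick_mul hG1 hc
  obtain ⟨ep, hep0, hepa, hepb, -⟩ := pick_pos 1 (c / (G1 + 1)) 1 one_pos hep1 one_pos
  have hG1ep := hep2 ep hep0.le hepb
  obtain ⟨hk1, hk2⟩ := pick_mul (L := 5 * L0) (by positivity) (half_pos hc)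
  obtain ⟨hk3, hk4⟩ := pick_mul (L := 5 * (P + 16)) (by positivity) (by positivity : 0 < ep / 8)
  obtain ⟨κ1, hκ0, hκa, hκb, hκc⟩ := pick_pos (min (1 / 5) (kC / 5)) (min (c / 2 / (5 * L0 + 1))
    (ep / 8 / (5 * (P + 16) + 1))) (ep / 240) (by positivity) (lt_min hk1 hk3) (by positivity)
  obtain ⟨x, hx0, hxa, hxb, -⟩ := pick_pos (ep ^ 2 * e / 400) (ep / 16) 1 (by positivity)
    (by positivity) one_pos
  exact ⟨ep, κ1, x, ⟨hep0, hepa, hG1ep, hκ0, by linarith [hκa.trans (min_le_left _ _)],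
    by linarith [hκa.trans (min_le_right _ _)], hk2 κ1 hκ0.le (hκb.trans (min_le_left _ _)),
    hk4 κ1 hκ0.le (hκb.trans (min_le_right _ _)), hκc, hx0, hxa, hxb⟩⟩

/-- the numbers of the lower side -/
structure K2 (β v y Q c s η : ℝ) : Prop where
  s0 : 0 < s
  s1 : s ≤ 1
  Ls : (v - y) / (4 * (2 * v - y) ^ 2) * (2 * (β * (2 * v - y) * √Q) + 1) * s ≤ c / 4
  η0 : 0 < η
  η1 : η ≤ 1
  ηs : β * (2 * v) * √Q * η ≤ s / 4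

lemma ex_K2 {β v y Q c : ℝ} (hβ : 1 ≤ β) (hy : 0 < y) (hyv : y < v) (hc : 0 < c) :
    ∃ s η : ℝ, K2 β v y Q c s η := by
  have hv : 0 < v := hy.trans hyv
  have h2v : 0 < 2 * v - y := by linarith
  have hvy : 0 < v - y := by linarith
  obtain ⟨hs1, hs2⟩ := pick_mul (L := (v - y) / (4 * (2 * v - y) ^ 2) *
    (2 * (β * (2 * v - y) * √Q) + 1)) (by positivity) (by positivity : 0 < c / 4)
  obtain ⟨s, hs0, hsa, hsb, -⟩ := pick_pos 1 _ 1 one_pos hs1 one_pos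
  obtain ⟨hη1, hη2⟩ := pick_mul (L := β * (2 * v) * √Q) (by positivity)
    (by positivity : 0 < s / 4)
  obtain ⟨η, hη0, hηa, hηb, -⟩ := pick_pos 1 _ 1 one_pos hη1 one_pos
  exact ⟨s, η, ⟨hs0, hsa, hs2 s hs0.le hsb, hη0, hηa, hη2 η hη0.le hηb⟩⟩

/-- the numbers `t`, `dd`, `tp` -/
structure K3 (Q P A ep x z1 t dd tp : ℝ) : Prop where
  t0 : 0 < t
  t1 : t ≤ 1
  tx : A * Q ^ 3 * t ≤ x / 8
  d0 : 0 < dd
  d1 : dd ≤ 1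
  dep : dd ^ 2 ≤ ep
  dx : A * Q ^ 2 / t * dd ≤ x / 8
  dP : P * Q ^ 2 * dd ≤ ep / 8
  tp0 : 0 < tp
  tpz : √Q * tp ≤ z1 / 8

lemma ex_K3 {Q P A ep x z1 : ℝ} (hQ : 0 ≤ Q) (hP : 0 ≤ P) (hA : 0 ≤ A) (hep : 0 < ep)
    (hep1 : ep ≤ 1) (hx : 0 < x) (hz : 0 < z1) : ∃ t dd tp : ℝ, K3 Q P A ep x z1 t dd tp := by
  obtain ⟨ht1, ht2⟩ := pick_mul (L := A * Q ^ 3) (by positivity) (by positivity : 0 < x / 8)
  obtain ⟨t, ht0, hta, htb, -⟩ := pick_pos 1 _ 1 one_pos ht1 one_pos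
  obtain ⟨hd1, hd2⟩ := pick_mul (L := A * Q ^ 2 / t) (by positivity) (by positivity : 0 < x / 8)
  obtain ⟨hd3, hd4⟩ := pick_mul (L := P * Q ^ 2) (by positivity) (by positivity : 0 < ep / 8)
  obtain ⟨dd, hdd0, hdda, hddb, hddc⟩ := pick_pos ep _ _ hep hd1 hd3
  obtain ⟨tp1, tp2⟩ := pick_mul (L := √Q) (Real.sqrt_nonneg Q) (by positivity : 0 < z1 / 8)
  exact ⟨t, dd, _, ⟨ht0, hta, ht2 t ht0.le htb, hdd0, hdda.trans hep1, by nlinarith,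
    hd2 dd hdd0.le hddb, hd4 dd hdd0.le hddc, tp1, tp2 _ tp1.le le_rfl⟩⟩

/-- the width `δ` of the bundles -/
structure K4 (β v y Q E0 A c s x z1 δ : ℝ) : Prop where
  δ0 : 0 < δ
  δ1 : δ ≤ 1 / 100
  δv : v * δ ≤ (v - y) / 2
  w1 : 2 * E0 * δ ≤ c / 2
  w2 : β ^ 2 * (v * Q) * δ ≤ c / 2
  w3 : (β * y * √Q + 2 * β * v * √Q) * δ ≤ s / 4
  w4 : β * (y * Q) * δ ≤ z1 / 8
  w5 : A * (v * Q ^ 2) * δ ≤ x / 8

lemma ex_K4 {β v y Q E0 A c s x z1 : ℝ} (hβ : 0 ≤ β) (hy : 0 < y) (hyv : y < v) (hQ : 0 ≤ Q)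
    (hE : 0 ≤ E0) (hA : 0 ≤ A) (hc : 0 < c) (hs : 0 < s) (hx : 0 < x) (hz : 0 < z1) :
    ∃ δ : ℝ, K4 β v y Q E0 A c s x z1 δ := by
  have hv : 0 < v := hy.trans hyv
  have hvy : 0 < v - y := by linarith
  obtain ⟨q1, q2⟩ := pick_mul (L := 2 * E0) (by positivity) (half_pos hc)
  obtain ⟨q3, q4⟩ := pick_mul (L := β ^ 2 * (v * Q)) (by positivity) (half_pos hc)
  obtain ⟨q5, q6⟩ := pick_mul (L := β * y * √Q + 2 * β * v * √Q) (by positivity)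
    (by positivity : 0 < s / 4)
  obtain ⟨q7, q8⟩ := pick_mul (L := β * (y * Q)) (by positivity) (by positivity : 0 < z1 / 8)
  obtain ⟨q9, q10⟩ := pick_mul (L := A * (v * Q ^ 2)) (by positivity) (by positivity : 0 < x / 8)
  obtain ⟨δ, hδ0, hδa, hδb, hδc⟩ := pick_pos (min (1 / 100) ((v - y) / (2 * v)))
    (min _ _) (min _ (min _ _)) (lt_min (by norm_num) (by positivity)) (lt_min q1 q3)
    (lt_min q5 (lt_min q7 q9))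
  refine ⟨δ, ⟨hδ0, hδa.trans (min_le_left _ _), ?_, q2 δ hδ0.le (hδb.trans (min_le_left _ _)),
    q4 δ hδ0.le (hδb.trans (min_le_right _ _)), q6 δ hδ0.le (hδc.trans (min_le_left _ _)),
    q8 δ hδ0.le (hδc.trans ((min_le_right _ _).trans (min_le_left _ _))),
    q10 δ hδ0.le (hδc.trans ((min_le_right _ _).trans (min_le_right _ _)))⟩⟩
  have := hδa.trans (min_le_right _ _)
  rw [le_div_iff₀ (by positivity)] at this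
  linarith

/-- the number of the levels, the second field, the gap -/
structure K5 (β v y Q κ1 δ dd z1 κ2 π₀ : ℝ) (a : ℕ) : Prop where
  a3 : 3 ≤ a
  g1 : β * (2 * v * (5 * Q / (a - 1))) ≤ z1 / 8
  g2 : 5 * Q / (a - 2) ≤ dd ^ 2 / 2
  k0 : 0 < κ2
  ka : (3 * a + 1) * (5 * κ2) = κ1
  kb : 2 * κ2 ≤ κ1
  p0 : 0 < π₀
  pa : π₀ ≤ y * δ / a
  pb : π₀ ≤ v * (1 - δ) - y
  pc : π₀ ≤ v * δ / (2 * a + 2)

lemma ex_K5 {β v y Q κ1 δ dd z1 : ℝ} (hy : 0 < y) (hyv : y < v)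
    (hκ : 0 < κ1) (hδ : 0 < δ) (hδv : v * δ ≤ (v - y) / 2) (hdd : 0 < dd) (hz : 0 < z1) :
    ∃ κ2 π₀ : ℝ, ∃ a : ℕ, K5 β v y Q κ1 δ dd z1 κ2 π₀ a := by
  have hv : 0 < v := hy.trans hyv
  obtain ⟨a, ha⟩ := exists_nat_ge (max (max 3 (80 * β * v * Q / z1 + 1)) (10 * Q / dd ^ 2 + 2))
  have ha3 : (3 : ℝ) ≤ a := (le_max_left _ _).trans ((le_max_left _ _).trans ha)
  have ha1 : 80 * β * v * Q / z1 + 1 ≤ a := (le_max_right _ _).trans ((le_max_left _ _).trans ha)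
  have ha2 : 10 * Q / dd ^ 2 + 2 ≤ a := (le_max_right _ _).trans ha
  have ha0 : (0 : ℝ) < a := by linarith
  obtain ⟨π₀, hπ0, hπa, hπb, hπc⟩ := pick_pos (y * δ / a) (v * (1 - δ) - y) (v * δ / (2 * a + 2))
    (by positivity) (by linarith) (by positivity)
  refine ⟨κ1 / (5 * (3 * a + 1)), π₀, a, ⟨by exact_mod_cast ha3, ?_, ?_, by positivity, ?_, ?_,
    hπ0, hπa, hπb, hπc⟩⟩
  · have e1 : β * (2 * v * (5 * Q / (a - 1))) = 10 * β * v * Q / (a - 1) := by ring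
    rw [e1, div_le_iff₀ (by linarith)]
    have : 80 * β * v * Q / z1 ≤ a - 1 := by linarith
    rw [div_le_iff₀ hz] at this
    linarith
  · rw [div_le_iff₀ (by linarith)]
    have : 10 * Q / dd ^ 2 ≤ a - 2 := by linarith
    rw [div_le_iff₀ (by positivity)] at this
    linarith
  · field_simp
  · rw [← mul_div_assoc, div_le_iff₀ (by positivity)]
    nlinarith

/-- the numbers at the scale `u` -/
structure Kev (β S E0 Q B0 P c s x z1 ep κ1 κ2 dd π₀ tp v G : ℝ) (p : ℝ × ℝ) : Prop where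
  k3 : 4 * β * E0 * p.1 ^ 2 / κ2 * S + 2 * S ^ 2 * p.1 ^ 2 < s / 4
  k4 : β ^ 2 * v * (p.2 * p.1 ^ 4) < c / 4
  k5 : 20 * (G * p.2) / π₀ ^ 2 < dd ^ 2 / 2
  k6 : Q ^ 2 * β ^ 2 * p.1 ^ 2 < ep / 200
  k7 : P * (Q ^ 4 * p.1) < ep / 8
  k8 : 4 * (Q * p.1) ^ 2 * (B0 + 5 * κ1 * p.1 ^ 3) < 1 / 4
  k9 : 5 * κ1 * p.1 ^ 2 + B0 * (p.2 * p.1 ^ 5) < Q
  k10 : (4 + Q) * p.1 < 1
  k11 : (tp + 2 * S) * p.1 ^ 2 < 1
  k12 : 4 * β * E0 * p.1 ^ 2 / κ2 < 1 / 4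
  k13 : S * p.1 ^ 2 < c

lemma ev_of {F : ℝ × ℝ → ℝ} (hF : Continuous F) {c : ℝ} (h : F (0, 0) < c) :
    ∀ᶠ p : ℝ × ℝ in 𝓝 (0, 0), F p < c :=
  hF.continuousAt.eventually_lt continuousAt_const h

lemma ev_Kev {β S E0 Q B0 P c s x z1 ep κ1 κ2 dd π₀ tp v G : ℝ} (hc : 0 < c) (hs : 0 < s)
    (hdd : 0 < dd) (hep : 0 < ep) (hQ : 0 < Q) :
    ∀ᶠ p : ℝ × ℝ in 𝓝 (0, 0), Kev β S E0 Q B0 P c s x z1 ep κ1 κ2 dd π₀ tp v G p := by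
  have f3 : ∀ᶠ p : ℝ × ℝ in 𝓝 (0, 0), 4 * β * E0 * p.1 ^ 2 / κ2 * S + 2 * S ^ 2 * p.1 ^ 2 <
      s / 4 := ev_of (by fun_prop) (by
    simp only [ne_eq, OfNat.ofNat_ne_zero, not_false_eq_true, zero_pow, mul_zero, zero_div,
      zero_mul, add_zero]
    positivity)
  have f4 : ∀ᶠ p : ℝ × ℝ in 𝓝 (0, 0), β ^ 2 * v * (p.2 * p.1 ^ 4) < c / 4 :=
    ev_of (by fun_prop) (by
      simp only [mul_zero, zero_mul]
      positivity)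
  have f5 : ∀ᶠ p : ℝ × ℝ in 𝓝 (0, 0), 20 * (G * p.2) / π₀ ^ 2 < dd ^ 2 / 2 :=
    ev_of (by fun_prop) (by
      simp only [mul_zero, zero_div]
      positivity)
  have f6 : ∀ᶠ p : ℝ × ℝ in 𝓝 (0, 0), Q ^ 2 * β ^ 2 * p.1 ^ 2 < ep / 200 :=
    ev_of (by fun_prop) (by
      simp only [ne_eq, OfNat.ofNat_ne_zero, not_false_eq_true, zero_pow, mul_zero]
      positivity)
  have f7 : ∀ᶠ p : ℝ × ℝ in 𝓝 (0, 0), P * (Q ^ 4 * p.1) < ep / 8 :=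
    ev_of (by fun_prop) (by
      simp only [mul_zero]
      positivity)
  have f8 : ∀ᶠ p : ℝ × ℝ in 𝓝 (0, 0), 4 * (Q * p.1) ^ 2 * (B0 + 5 * κ1 * p.1 ^ 3) < 1 / 4 :=
    ev_of (by fun_prop) (by
      simp only [ne_eq, OfNat.ofNat_ne_zero, not_false_eq_true, zero_pow, mul_zero, zero_mul]
      norm_num)
  have f9 : ∀ᶠ p : ℝ × ℝ in 𝓝 (0, 0), 5 * κ1 * p.1 ^ 2 + B0 * (p.2 * p.1 ^ 5) < Q :=
    ev_of (by fun_prop) (by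
      simp only [ne_eq, OfNat.ofNat_ne_zero, not_false_eq_true, zero_pow, mul_zero, add_zero]
      exact hQ)
  have f10 : ∀ᶠ p : ℝ × ℝ in 𝓝 (0, 0), (4 + Q) * p.1 < 1 :=
    ev_of (by fun_prop) (by
      simp only [mul_zero]
      norm_num)
  have f11 : ∀ᶠ p : ℝ × ℝ in 𝓝 (0, 0), (tp + 2 * S) * p.1 ^ 2 < 1 :=
    ev_of (by fun_prop) (by
      simp only [ne_eq, OfNat.ofNat_ne_zero, not_false_eq_true, zero_pow, mul_zero]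
      norm_num)
  have f12 : ∀ᶠ p : ℝ × ℝ in 𝓝 (0, 0), 4 * β * E0 * p.1 ^ 2 / κ2 < 1 / 4 :=
    ev_of (by fun_prop) (by
      simp only [ne_eq, OfNat.ofNat_ne_zero, not_false_eq_true, zero_pow, mul_zero, zero_div]
      norm_num)
  have f13 : ∀ᶠ p : ℝ × ℝ in 𝓝 (0, 0), S * p.1 ^ 2 < c :=
    ev_of (by fun_prop) (by
      simp only [ne_eq, OfNat.ofNat_ne_zero, not_false_eq_true, zero_pow, mul_zero]
      exact hc)
  filter_upwards [f3, f4, f5, f6, f7, f8, f9, f10, f11, f12, f13] with p k3 k4 k5 k6 k7 k8 k9 k10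
    k11 k12 k13
  exact ⟨k3, k4, k5, k6, k7, k8, k9, k10, k11, k12, k13⟩

lemma ev_errF {β v y Q δ tp E0 π₀ G z1 : ℝ} {a : ℕ} (hz : 0 < z1)
    (g1 : β * (2 * v * (5 * Q / (a - 1))) ≤ z1 / 8) (w4 : β * (y * Q) * δ ≤ z1 / 8)
    (tz : √Q * tp ≤ z1 / 8) :
    ∀ᶠ p : ℝ × ℝ in 𝓝 (0, 0), errF β v y δ Q G π₀ tp (4 * E0) a p < z1 := by
  refine ev_of (errF_cont β v y δ Q G π₀ tp (4 * E0) a) ?_
  unfold errF
  simp only [mul_zero, add_zero, zero_div, ne_eq, OfNat.ofNat_ne_zero, not_false_eq_true,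
    zero_pow]
  have e1 : β * (2 * v * (5 * Q / (a - 1)) + y * δ * Q) + tp * √Q =
    β * (2 * v * (5 * Q / (a - 1))) + β * (y * Q) * δ + √Q * tp := by ring
  rw [e1]
  linarith

lemma ev_eTF {A Q dd κ1 G π₀ κ2 t v δ x : ℝ} (hx : 0 < x) (h1 : A * Q ^ 3 * t ≤ x / 8)
    (h2 : A * Q ^ 2 / t * dd ≤ x / 8) (h3 : A * (v * Q ^ 2) * δ ≤ x / 8) :
    ∀ᶠ p : ℝ × ℝ in 𝓝 (0, 0), eTF A Q dd (5 * κ1) G π₀ κ2 t (v * δ) p < x := by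
  refine ev_of (eTF_cont A Q dd (5 * κ1) G π₀ κ2 t (v * δ)) ?_
  unfold eTF
  simp only [mul_zero, add_zero, zero_div, ne_eq, OfNat.ofNat_ne_zero, not_false_eq_true,
    zero_pow, zero_add]
  have e1 : A * (dd * Q ^ 2 / t + t * Q ^ 3 + v * δ * Q ^ 2) =
    A * Q ^ 2 / t * dd + A * Q ^ 3 * t + A * (v * Q ^ 2) * δ := by ring
  rw [e1]
  linarith

/-- the error of the lower row -/
lemma e2_aux {β v y Q c s η δ S E0 κ2 u N ξ A x z1 ε₂ : ℝ} (hy : 0 < y) (hyv : y < v)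
    (hβ : 1 ≤ β) (hE : 0 ≤ E0) (hQ : 0 ≤ Q) (hu : 0 < u) (hN : 0 < N) (hξ : ξ = 1 / (N * u ^ 6))
    (H2 : K2 β v y Q c s η) (H4 : K4 β v y Q E0 A c s x z1 δ)
    (hε : ε₂ = β * (y * δ + η * (2 * v)) * √Q + 2 * β * (v * δ * √Q) +
        4 * β * E0 * u ^ 2 / κ2 * S + 2 * S ^ 2 * u ^ 2)
    (k3 : 4 * β * E0 * u ^ 2 / κ2 * S + 2 * S ^ 2 * u ^ 2 < s / 4)
    (k4 : β ^ 2 * v * (ξ * u ^ 4) < c / 4) (hη : 0 ≤ η) (hκ : 0 < κ2) (hS : 0 ≤ S) :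
    β ^ 2 / 4 * (v * δ * Q + v / (N * u ^ 2)) + (v - y) / (4 * (2 * v - y) ^ 2) *
      (2 * (β * (2 * v - y) * √Q) * ε₂ + ε₂ ^ 2) ≤ c := by
  have hv : 0 < v := hy.trans hyv
  have h2v : 0 < 2 * v - y := by linarith
  have hvy : 0 < v - y := by linarith
  have hδ := H4.δ0
  have w2 := H4.w2
  have w3 := H4.w3
  have ηs := H2.ηs
  have s0 := H2.s0
  have s1 := H2.s1
  have Ls := H2.Ls
  have hβ0 : 0 < β := by linarith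
  obtain ⟨z, hz⟩ : ∃ z, z = (v - y) / (4 * (2 * v - y) ^ 2) := ⟨_, rfl⟩
  have hz0 : 0 < z := by rw [hz]; positivity
  rw [← hz] at Ls ⊢
  have h1 : ε₂ ≤ s := by
    have e1 : β * (y * δ + η * (2 * v)) * √Q + 2 * β * (v * δ * √Q) =
      (β * y * √Q + 2 * β * v * √Q) * δ + β * (2 * v) * √Q * η := by ring
    rw [hε, e1]
    linarith
  have h0 : 0 ≤ ε₂ := by
    rw [hε]
    positivity
  have h2 : z * (2 * (β * (2 * v - y) * √Q) * ε₂ + ε₂ ^ 2) ≤ c / 4 := by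
    have h3 : 2 * (β * (2 * v - y) * √Q) * ε₂ + ε₂ ^ 2 ≤
        (2 * (β * (2 * v - y) * √Q) + 1) * s := by
      have h4 : ε₂ ^ 2 ≤ s := by
        calc ε₂ ^ 2 ≤ s ^ 2 := pow_le_pow_left₀ h0 h1 2
          _ = s * s := by ring
          _ ≤ s * 1 := mul_le_mul_of_nonneg_left s1 s0.le
          _ = s := mul_one s
      have h5 : 2 * (β * (2 * v - y) * √Q) * ε₂ ≤ 2 * (β * (2 * v - y) * √Q) * s :=
        mul_le_mul_of_nonneg_left h1 (by positivity)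
      linarith
    calc z * (2 * (β * (2 * v - y) * √Q) * ε₂ + ε₂ ^ 2) ≤
        z * ((2 * (β * (2 * v - y) * √Q) + 1) * s) := mul_le_mul_of_nonneg_left h3 hz0.le
      _ = z * (2 * (β * (2 * v - y) * √Q) + 1) * s := by ring
      _ ≤ c / 4 := Ls
  have h6 : β ^ 2 / 4 * (v * δ * Q + v / (N * u ^ 2)) ≤ c / 8 + c / 16 := by
    have e1 : v / (N * u ^ 2) = v * (ξ * u ^ 4) := by
      rw [hξ]
      field_simp
    rw [e1]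
    have e2 : β ^ 2 / 4 * (v * δ * Q + v * (ξ * u ^ 4)) =
      (β ^ 2 * (v * Q) * δ) / 4 + (β ^ 2 * v * (ξ * u ^ 4)) / 4 := by ring
    rw [e2]
    linarith
  have hc : 0 < c := by
    have : 0 ≤ β ^ 2 * (v * Q) * δ := by positivity
    have : 0 ≤ z * (2 * (β * (2 * v - y) * √Q) * ε₂ + ε₂ ^ 2) := by positivity
    by_contra hcon
    push Not at hcon
    have h7 : 0 ≤ β ^ 2 * v * (ξ * u ^ 4) := by
      rw [hξ]
      positivity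
    linarith
  linarith

/-- **What holds at the scale `u`.** -/
structure KU' (β v y S e E0 Q c P B0 ep κ1 x η t dd δ tp κ2 π₀ : ℝ) (a n : ℕ) (u : ℝ) : Prop where
  u1 : u ≤ 1
  u4 : 4 * u ≤ 1
  tu : tp * u ^ 2 ≤ 1
  Qu : Q * u ≤ 1
  Su : S * u ^ 2 ≤ 1 / 2
  Sc : S * u ^ 2 ≤ c
  n6 : (1 : ℝ) ≤ n * u ^ 6
  n2 : (1 : ℝ) ≤ n * u ^ 2
  e1 : 4 * β * E0 * u ^ 2 / κ2 ≤ 1 / 4
  err : errU β v y δ Q (128 * E0 / κ2 ^ 2 * (1 / (n * u ^ 6))) π₀ tp (4 * E0) n u a ≤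
    η * (κ1 / (100 * β ^ 2)) / 2
  e2 : β ^ 2 / 4 * (v * δ * Q + v / (n * u ^ 2)) + (v - y) / (4 * (2 * v - y) ^ 2) *
    (2 * (β * (2 * v - y) * √Q) * (β * (y * δ + η * (2 * v)) * √Q + 2 * β * (v * δ * √Q) +
        4 * β * E0 * u ^ 2 / κ2 * S + 2 * S ^ 2 * u ^ 2) +
      (β * (y * δ + η * (2 * v)) * √Q + 2 * β * (v * δ * √Q) +
        4 * β * E0 * u ^ 2 / κ2 * S + 2 * S ^ 2 * u ^ 2) ^ 2) ≤ c
  good : 5 * Q / (a - 2) + 20 * (128 * E0 / κ2 ^ 2 * (1 / (n * u ^ 6))) / π₀ ^ 2 ≤ dd ^ 2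
  eT' : eT n (Q * u) (dd * u) (5 * κ1 * u ^ 3) B0
    (128 * E0 / κ2 ^ 2 * (1 / (n * u ^ 6)) * u ^ 4) (π₀ * u) (κ2 * u ^ 3) t (v * δ * u) ≤
      x * u ^ 3
  c1 : Q ^ 2 * β ^ 2 * u ^ 2 ≤ ep / 200
  c3 : P * (dd * Q ^ 2 + Q ^ 4 * u + 5 * κ1) + 16 * (5 * κ1) + 2 * x ≤ ep
  sm : 4 * (Q * u) ^ 2 * (B0 + 5 * κ1 * u ^ 3) ≤ 1 / 4
  kt : 5 * κ1 * u ^ 3 + B0 / n ≤ Q * u

/-- **The constants independent of the scale.** -/
structure KC (β v y e E0 Q kC c P G1 L0 ep κ1 x η t dd δ tp κ2 π₀ : ℝ) (a : ℕ) : Prop where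
  ep0 : 0 < ep
  ep1 : ep ≤ 1
  k0 : 0 < κ1
  k1 : κ1 ≤ 1
  x0 : 0 < x
  xe : x ≤ ep ^ 2 * e / 400
  η0 : 0 < η
  η1 : η ≤ 1
  t0 : 0 < t
  t1 : t ≤ 1
  d0 : 0 < dd
  d1 : dd ≤ 1
  dep : dd ^ 2 ≤ ep
  δ0 : 0 < δ
  δ1 : δ ≤ 1 / 100
  δv : y ≤ v * (1 - δ)
  tp0 : 0 < tp
  k20 : 0 < κ2
  k21 : 2 * κ2 ≤ κ1
  p0 : 0 < π₀
  pa : π₀ ≤ y * δ / a
  pb : π₀ ≤ v * (1 - δ) - y
  pc : π₀ ≤ v * δ / (2 * a + 2)
  a3 : 3 ≤ a
  ks : 4 * κ1 + (3 * a + 1) * (5 * κ2) ≤ 5 * κ1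
  kC' : 5 * κ1 ≤ kC
  k5 : 5 * κ1 ≤ 1
  ke : 48 * (5 * κ1) ≤ ep
  S3 : 5 * κ1 * L0 + δ * (2 * E0) ≤ c
  Ge : G1 * ep ≤ c
  δc : β ^ 2 * (v * (δ * Q)) ≤ c

/-- **The constants of the cross rows.**  `c` = the target, `kC` = the admissible total of the
white fields, `L0` = the coefficient of the white fields in the S3 error, `E0` = the energy of the
box, `Q` = the constant of the fourth moment, `P`, `G1`, `B0` = the constants of the U-side. -/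
theorem crsC {β v y S e E0 Q kC c P G1 L0 B0 : ℝ} (hβ : 1 ≤ β) (hy : 0 < y) (hyv : y < v)
    (hS : 0 ≤ S) (he : 0 < e) (hE0 : 1 ≤ E0) (hQ : 2 ≤ Q) (hkC : 0 < kC)
    (hc : 0 < c) (hP : 0 ≤ P) (hG1 : 0 ≤ G1) (hL0 : 0 ≤ L0) (hB0 : 0 ≤ B0) :
    ∃ ep κ1 x η t dd δ tp κ2 π₀ : ℝ, ∃ a : ℕ, KC β v y e E0 Q kC c P G1 L0 ep κ1 x η t dd δ tp κ2
      π₀ a ∧ ∃ u0 M : ℝ, 0 < u0 ∧ 0 < M ∧
      ∀ (n : ℕ) (u : ℝ), 0 < n → 0 < u → u ≤ u0 → M ≤ n * u ^ 6 →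
        KU' β v y S e E0 Q c P B0 ep κ1 x η t dd δ tp κ2 π₀ a n u := by
  have hv : 0 < v := hy.trans hyv
  have hβ0 : 0 < β := by linarith
  have hQ0 : 0 < Q := by linarith
  obtain ⟨ep, κ1, x, H1⟩ := ex_K1 (e := e) he hkC hc hP hG1 hL0
  obtain ⟨s, η, H2⟩ := ex_K2 (Q := Q) hβ hy hyv hc
  obtain ⟨z1, hz1⟩ : ∃ z1, z1 = η * (κ1 / (100 * β ^ 2)) / 2 := ⟨_, rfl⟩
  have hz10 : 0 < z1 := by
    rw [hz1]
    have := H1.k0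
    have := H2.η0
    positivity
  obtain ⟨A, hA⟩ : ∃ A, A = KV ^ 2 * (1000000000000 * B0 ^ 5) := ⟨_, rfl⟩
  have hA0 : 0 ≤ A := by rw [hA]; positivity
  obtain ⟨t, dd, tp, H3⟩ := ex_K3 (Q := Q) hQ0.le hP hA0 H1.ep0 H1.ep1 H1.x0 hz10
  obtain ⟨δ, H4⟩ := ex_K4 (Q := Q) hβ0.le hy hyv hQ0.le (by linarith : 0 ≤ E0) hA0 hc H2.s0 H1.x0
    hz10
  obtain ⟨κ2, π₀, a, H5⟩ := ex_K5 (β := β) (Q := Q) hy hyv H1.k0 H4.δ0 H4.δv H3.d0 hz10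
  obtain ⟨G, hG⟩ : ∃ G, G = 128 * E0 / κ2 ^ 2 := ⟨_, rfl⟩
  have f1 := ev_errF (E0 := E0) (π₀ := π₀) (G := G) hz10 H5.g1 H4.w4 H3.tpz
  have f2 := ev_eTF (κ1 := κ1) (G := G) (π₀ := π₀) (κ2 := κ2) H1.x0 H3.tx H3.dx H4.w5
  have f3 := ev_Kev (β := β) (S := S) (E0 := E0) (B0 := B0) (P := P) (x := x) (z1 := z1)
    (κ1 := κ1) (κ2 := κ2) (π₀ := π₀) (tp := tp) (v := v) (G := G) hc H2.s0 H3.d0 H1.ep0 hQ0
  obtain ⟨ρ, hρ, f⟩ := Metric.eventually_nhds_iff.1 (f1.and (f2.and f3))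
  refine ⟨ep, κ1, x, η, t, dd, δ, tp, κ2, π₀, a, ?_, ρ / 2, max 1 (2 / ρ), by positivity,
    by positivity, ?_⟩
  · have w2 := H4.w2
    have w1 := H4.w1
    have kL := H1.kL
    have ke := H1.ke
    have ka := H5.ka
    have δv := H4.δv
    exact ⟨H1.ep0, H1.ep1, H1.k0, by linarith [H1.k1, H1.k0], H1.x0, H1.xa, H2.η0, H2.η1, H3.t0,
      H3.t1, H3.d0, H3.d1, H3.dep, H4.δ0, H4.δ1, by linarith, H3.tp0, H5.k0, H5.kb, H5.p0, H5.pa,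
      H5.pb, H5.pc, H5.a3, by linarith, H1.kC', H1.k1, by linarith, by linarith, H1.Ge, by
        have : β ^ 2 * (v * (δ * Q)) = β ^ 2 * (v * Q) * δ := by ring
        linarith⟩
  intro n u hn hu huu hM
  have hn' : (0 : ℝ) < n := by exact_mod_cast hn
  have hnu : 0 < (n : ℝ) * u ^ 6 := by positivity
  have hM1 : (1 : ℝ) ≤ n * u ^ 6 := (le_max_left _ _).trans hM
  have hM2 : 2 / ρ ≤ n * u ^ 6 := (le_max_right _ _).trans hM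
  obtain ⟨ξ, hξ⟩ : ∃ ξ, ξ = 1 / ((n : ℝ) * u ^ 6) := ⟨_, rfl⟩
  have hξ0 : 0 < ξ := by rw [hξ]; positivity
  have hξρ : ξ ≤ ρ / 2 := by
    rw [hξ, div_le_iff₀ hnu]
    rw [div_le_iff₀ hρ] at hM2
    linarith
  obtain ⟨k1, k2, k⟩ := f (y := (u, ξ)) (by
    rw [Prod.dist_eq, Real.dist_eq, Real.dist_eq]
    simp only [sub_zero]
    rw [abs_of_pos hu, abs_of_pos hξ0]
    exact max_lt (by linarith) (by linarith))
  have k3 := k.k3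
  have k4 := k.k4
  have k5 := k.k5
  have k7 := k.k7
  have k10 := k.k10
  have k11 := k.k11
  simp only at k3 k4 k5 k7 k10 k11
  have hu1 : u ≤ 1 := by nlinarith
  have hQu : Q * u ≤ 1 := by linarith
  have hu4 : 4 * u ≤ 1 := by nlinarith
  have hu2 : 0 < u ^ 2 := by positivity
  have hnu2 : (1 : ℝ) ≤ n * u ^ 2 := by
    have : (n : ℝ) * u ^ 6 ≤ n * u ^ 2 :=
      mul_le_mul_of_nonneg_left (pow_le_pow_of_le_one hu.le hu1 (by norm_num)) hn'.le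
    linarith
  have htpu : 0 ≤ tp * u ^ 2 := mul_nonneg H3.tp0.le hu2.le
  have hSu : 0 ≤ S * u ^ 2 := mul_nonneg hS hu2.le
  have e11 : (tp + 2 * S) * u ^ 2 = tp * u ^ 2 + 2 * (S * u ^ 2) := by ring
  rw [e11] at k11
  constructor
  · exact hu1
  · exact hu4
  · linarith
  · exact hQu
  · linarith
  · exact k.k13.le
  · exact hM1
  · exact hnu2
  · exact k.k12.le
  · rw [← hG, errU_eq hn' hu, ← hξ, ← hz1]
    exact k1.le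
  · obtain ⟨ε₂, hε⟩ : ∃ ε₂, ε₂ = β * (y * δ + η * (2 * v)) * √Q + 2 * β * (v * δ * √Q) +
        4 * β * E0 * u ^ 2 / κ2 * S + 2 * S ^ 2 * u ^ 2 := ⟨_, rfl⟩
    rw [← hε]
    exact e2_aux hy hyv hβ (by linarith) hQ0.le hu hn' hξ H2 H4 hε k3 k4 H2.η0.le H5.k0 hS
  · rw [← hG, ← hξ]
    linarith [H5.g2]
  · have e1 := eT_eq (n := n) (Q := Q) (dd := dd) (k := 5 * κ1) (B0 := B0) (G := G) (π₀ := π₀)
      (κ2 := κ2) (t := t) (w := v * δ) (u := u) hn hu H5.p0 H5.k0 H3.t0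
    rw [← hG, e1, ← hξ, ← hA]
    exact mul_le_mul_of_nonneg_right k2.le (by positivity)
  · exact k.k6.le
  · have e1 : P * (dd * Q ^ 2 + Q ^ 4 * u + 5 * κ1) + 16 * (5 * κ1) + 2 * x =
      P * Q ^ 2 * dd + P * (Q ^ 4 * u) + 5 * (P + 16) * κ1 + 2 * x := by ring
    rw [e1]
    linarith [H3.dP, H1.kP, H1.xb, H1.ep0]
  · exact k.k8.le
  · have k9 := k.k9
    simp only at k9
    have e1 : B0 / (n : ℝ) = B0 * (ξ * u ^ 5) * u := by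
      rw [hξ]
      field_simp
    rw [e1]
    have e2 : 5 * κ1 * u ^ 3 + B0 * (ξ * u ^ 5) * u = (5 * κ1 * u ^ 2 + B0 * (ξ * u ^ 5)) * u := by
      ring
    rw [e2]
    exact mul_le_mul_of_nonneg_right k9.le hu.le

end Vale.Agent.P146.H437
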