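import Vale.Agent.P146.H437.CrsC
import Vale.Agent.P146.H437.CrsA
import Vale.Agent.P146.H607.X8

/-!
# P146, lower half: the constants of the cross rows in helper607's list (helper437)
-/

open Set Filter Topology

namespace Vale.Agent.P146.H437

open Vale.Agent.P146.H607 (errU eX gX CK CK_nonneg Cst Q4 Q4_ge)
open Vale.Agent.P146.H877x (eT KV)
open Vale.Agent.P146.H93.Pnum (CU KU)
open Vale.Agent.P146.H865 (Gc)

/-- the first numbers -/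
structure N1 (e kC d P G1 L0 δ₁ κ1 x : ℝ) : Prop where
  ep0 : 0 < δ₁
  ep1 : δ₁ ≤ 1
  Ge : G1 * δ₁ ≤ d / 8
  k0 : 0 < κ1
  k1 : κ1 ≤ 1 / 4
  kC' : 4 * κ1 ≤ kC
  kL : 8 * L0 * κ1 ≤ d / 4
  kP : 4 * (P + 16) * κ1 ≤ δ₁ / 8
  ke : κ1 ≤ δ₁ / 192
  x0 : 0 < x
  xa : x ≤ δ₁ / 8
  xb : x ≤ δ₁ * (δ₁ / 48)
  xc : x ≤ δ₁ * (e / 384)

lemma ex_N1 {e kC d P G1 L0 : ℝ} (he : 0 < e) (hkC : 0 < kC) (hd : 0 < d) (hP : 0 ≤ P)
    (hG1 : 0 ≤ G1) (hL0 : 0 ≤ L0) : ∃ δ₁ κ1 x : ℝ, N1 e kC d P G1 L0 δ₁ κ1 x := by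
  obtain ⟨hep1, hep2⟩ := pick_mul hG1 (by positivity : 0 < d / 8)
  obtain ⟨ep, hep0, hepa, hepb, -⟩ := pick_pos 1 (d / 8 / (G1 + 1)) 1 one_pos hep1 one_pos
  have hG1ep := hep2 ep hep0.le hepb
  obtain ⟨hk1, hk2⟩ := pick_mul (L := 8 * L0) (by positivity) (by positivity : 0 < d / 4)
  obtain ⟨hk3, hk4⟩ := pick_mul (L := 4 * (P + 16)) (by positivity) (by positivity : 0 < ep / 8)
  obtain ⟨κ1, hκ0, hκa, hκb, hκc⟩ := pick_pos (min (1 / 4) (kC / 4)) (min (d / 4 / (8 * L0 + 1))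
    (ep / 8 / (4 * (P + 16) + 1))) (ep / 192) (by positivity) (lt_min hk1 hk3) (by positivity)
  obtain ⟨x, hx0, hxa, hxb, hxc⟩ := pick_pos (ep / 8) (ep * (ep / 48)) (ep * (e / 384))
    (by positivity) (by positivity) (by positivity)
  exact ⟨ep, κ1, x, ⟨hep0, hepa, hG1ep, hκ0, hκa.trans (min_le_left _ _),
    by linarith [hκa.trans (min_le_right _ _)], hk2 κ1 hκ0.le (hκb.trans (min_le_left _ _)),
    hk4 κ1 hκ0.le (hκb.trans (min_le_right _ _)), hκc, hx0, hxa, hxb, hxc⟩⟩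

/-- the numbers of the lower side -/
structure N2 (β v y Q d g s η : ℝ) : Prop where
  s0 : 0 < s
  s1 : s ≤ 1
  Ls : g * (2 * (β * (2 * v - y) * Q) + 1) * s ≤ d / 4
  η0 : 0 < η
  η1 : η ≤ 1
  ηs : β * (2 * v) * Q * η ≤ s / 4

lemma ex_N2 {β v y Q d g : ℝ} (hβ : 1 ≤ β) (hy : 0 < y) (hyv : y < v) (hQ : 0 ≤ Q) (hd : 0 < d)
    (hg : 0 ≤ g) : ∃ s η : ℝ, N2 β v y Q d g s η := by
  have hv : 0 < v := hy.trans hyv
  have h2v : 0 < 2 * v - y := by linarith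
  have hβ0 : 0 < β := by linarith
  obtain ⟨hs1, hs2⟩ := pick_mul (L := g * (2 * (β * (2 * v - y) * Q) + 1)) (by positivity)
    (by positivity : 0 < d / 4)
  obtain ⟨s, hs0, hsa, hsb, -⟩ := pick_pos 1 _ 1 one_pos hs1 one_pos
  obtain ⟨hη1, hη2⟩ := pick_mul (L := β * (2 * v) * Q) (by positivity) (by positivity : 0 < s / 4)
  obtain ⟨η, hη0, hηa, hηb, -⟩ := pick_pos 1 _ 1 one_pos hη1 one_pos
  exact ⟨s, η, ⟨hs0, hsa, hs2 s hs0.le hsb, hη0, hηa, hη2 η hη0.le hηb⟩⟩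

/-- the numbers `t`, `dc`, `τ₃` -/
structure N3 (Q P A δ₁ x z1 t dd tp : ℝ) : Prop where
  t0 : 0 < t
  t1 : t ≤ 1
  tx : A * Q ^ 3 * t ≤ x / 8
  d0 : 0 < dd
  d1 : dd ≤ 1
  dep : dd ^ 2 ≤ δ₁
  dx : A * Q ^ 2 / t * dd ≤ x / 8
  dP : P * Q ^ 2 * dd ≤ δ₁ / 8
  tp0 : 0 < tp
  tpz : Q * tp ≤ z1 / 8

lemma ex_N3 {Q P A δ₁ x z1 : ℝ} (hQ : 0 ≤ Q) (hP : 0 ≤ P) (hA : 0 ≤ A) (hep : 0 < δ₁)
    (hep1 : δ₁ ≤ 1) (hx : 0 < x) (hz : 0 < z1) : ∃ t dd tp : ℝ, N3 Q P A δ₁ x z1 t dd tp := by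
  obtain ⟨ht1, ht2⟩ := pick_mul (L := A * Q ^ 3) (by positivity) (by positivity : 0 < x / 8)
  obtain ⟨t, ht0, hta, htb, -⟩ := pick_pos 1 _ 1 one_pos ht1 one_pos
  obtain ⟨hd1, hd2⟩ := pick_mul (L := A * Q ^ 2 / t) (by positivity) (by positivity : 0 < x / 8)
  obtain ⟨hd3, hd4⟩ := pick_mul (L := P * Q ^ 2) (by positivity) (by positivity : 0 < δ₁ / 8)
  obtain ⟨dd, hdd0, hdda, hddb, hddc⟩ := pick_pos δ₁ _ _ hep hd1 hd3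
  obtain ⟨tp1, tp2⟩ := pick_mul (L := Q) hQ (by positivity : 0 < z1 / 8)
  exact ⟨t, dd, _, ⟨ht0, hta, ht2 t ht0.le htb, hdd0, hdda.trans hep1, by nlinarith,
    hd2 dd hdd0.le hddb, hd4 dd hdd0.le hddc, tp1, tp2 _ tp1.le le_rfl⟩⟩

/-- the width `δ` of the bundles -/
structure N4 (β v y Q E0 A H d s x z1 δ : ℝ) : Prop where
  δ0 : 0 < δ
  δ1 : δ ≤ 1 / 100
  δv : v * δ ≤ (v - y) / 2
  w1 : 4 * E0 * δ ≤ d / 4
  w2 : β ^ 2 * (v * Q ^ 2) * δ ≤ d / 4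
  w3 : (β * y * Q + 2 * β * v * Q) * δ ≤ s / 4
  w4 : β * (y * Q ^ 2) * δ ≤ z1 / 8
  w5 : A * (v * Q ^ 2) * δ ≤ x / 8
  w6 : H * δ ≤ d / 4

lemma ex_N4 {β v y Q E0 A H d s x z1 : ℝ} (hβ : 0 ≤ β) (hy : 0 < y) (hyv : y < v) (hQ : 0 ≤ Q)
    (hE : 0 ≤ E0) (hA : 0 ≤ A) (hH : 0 ≤ H) (hd : 0 < d) (hs : 0 < s) (hx : 0 < x) (hz : 0 < z1) :
    ∃ δ : ℝ, N4 β v y Q E0 A H d s x z1 δ := by
  have hv : 0 < v := hy.trans hyv
  have hvy : 0 < v - y := by linarith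
  have hd4 : 0 < d / 4 := by positivity
  obtain ⟨q1, q2⟩ := pick_mul (L := 4 * E0) (by positivity) hd4
  obtain ⟨q3, q4⟩ := pick_mul (L := β ^ 2 * (v * Q ^ 2)) (by positivity) hd4
  obtain ⟨q5, q6⟩ := pick_mul (L := β * y * Q + 2 * β * v * Q) (by positivity)
    (by positivity : 0 < s / 4)
  obtain ⟨q7, q8⟩ := pick_mul (L := β * (y * Q ^ 2)) (by positivity) (by positivity : 0 < z1 / 8)
  obtain ⟨q9, q10⟩ := pick_mul (L := A * (v * Q ^ 2)) (by positivity) (by positivity : 0 < x / 8)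
  obtain ⟨q11, q12⟩ := pick_mul hH hd4
  obtain ⟨δ, hδ0, hδa, hδb, hδc⟩ := pick_pos (min (1 / 100) ((v - y) / (2 * v)))
    (min _ (min _ _)) (min _ (min _ _)) (lt_min (by norm_num) (by positivity))
    (lt_min q1 (lt_min q3 q11)) (lt_min q5 (lt_min q7 q9))
  refine ⟨δ, ⟨hδ0, hδa.trans (min_le_left _ _), ?_, q2 δ hδ0.le (hδb.trans (min_le_left _ _)),
    q4 δ hδ0.le (hδb.trans ((min_le_right _ _).trans (min_le_left _ _))),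
    q6 δ hδ0.le (hδc.trans (min_le_left _ _)),
    q8 δ hδ0.le (hδc.trans ((min_le_right _ _).trans (min_le_left _ _))),
    q10 δ hδ0.le (hδc.trans ((min_le_right _ _).trans (min_le_right _ _))),
    q12 δ hδ0.le (hδb.trans ((min_le_right _ _).trans (min_le_right _ _)))⟩⟩
  have := hδa.trans (min_le_right _ _)
  rw [le_div_iff₀ (by positivity)] at this
  linarith

/-- the number of the levels, the second field, the gap -/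
structure N5 (β v y Q κ1 δ dd z1 κ2 π₀ : ℝ) (a : ℕ) : Prop where
  a3 : 3 ≤ a
  g1 : β * (2 * v * (5 * Q ^ 2 / (a - 1))) ≤ z1 / 8
  g2 : 5 * Q ^ 2 / (a - 2) ≤ dd ^ 2 / 2
  k0 : 0 < κ2
  ka : 12 * a * κ2 ≤ κ1
  p0 : 0 < π₀
  pa : π₀ ≤ δ / (4 * a)
  pb : π₀ ≤ 1 / 4

lemma ex_N5 {β v y Q κ1 δ dd z1 : ℝ} (hκ : 0 < κ1) (hδ : 0 < δ) (hdd : 0 < dd) (hz : 0 < z1) :
    ∃ κ2 π₀ : ℝ, ∃ a : ℕ, N5 β v y Q κ1 δ dd z1 κ2 π₀ a := by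
  obtain ⟨a, ha⟩ := exists_nat_ge (max (max 3 (80 * β * v * Q ^ 2 / z1 + 1))
    (10 * Q ^ 2 / dd ^ 2 + 2))
  have ha3 : (3 : ℝ) ≤ a := (le_max_left _ _).trans ((le_max_left _ _).trans ha)
  have ha1 : 80 * β * v * Q ^ 2 / z1 + 1 ≤ a :=
    (le_max_right _ _).trans ((le_max_left _ _).trans ha)
  have ha2 : 10 * Q ^ 2 / dd ^ 2 + 2 ≤ a := (le_max_right _ _).trans ha
  have ha0 : (0 : ℝ) < a := by linarith
  obtain ⟨π₀, hπ0, hπa, hπb, -⟩ := pick_pos (δ / (4 * a)) (1 / 4) 1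
    (by positivity) (by norm_num) one_pos
  refine ⟨κ1 / (12 * a), π₀, a, ⟨by exact_mod_cast ha3, ?_, ?_, by positivity, ?_, hπ0, hπa,
    hπb⟩⟩
  · have e1 : β * (2 * v * (5 * Q ^ 2 / (a - 1))) = 10 * β * v * Q ^ 2 / (a - 1) := by ring
    rw [e1, div_le_iff₀ (by linarith)]
    have : 80 * β * v * Q ^ 2 / z1 ≤ a - 1 := by linarith
    rw [div_le_iff₀ hz] at this
    linarith
  · rw [div_le_iff₀ (by linarith)]
    have : 10 * Q ^ 2 / dd ^ 2 ≤ a - 2 := by linarith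
    rw [div_le_iff₀ (by positivity)] at this
    linarith
  · apply le_of_eq
    field_simp

/-- the numbers at the scale `u` -/
structure Nev (β S e E0 Q P d s x κ1 κ2 dd π₀ tp v G δ₁ : ℝ) (p : ℝ × ℝ) : Prop where
  k3 : 4 * β * E0 * p.1 ^ 2 / κ2 * S + 2 * S ^ 2 * p.1 ^ 2 < s / 4
  k4 : β ^ 2 * v * (p.2 * p.1 ^ 4) < d / 4
  k5 : 20 * (G * p.2) / π₀ ^ 2 < dd ^ 2 / 2
  k6 : 12 * (Q ^ 2 * β ^ 2 * e * p.1 ^ 2) < δ₁ / 4
  k6' : 12 * (Q ^ 2 * β ^ 2 * e * p.1 ^ 2) < e / 16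
  k7 : P * (Q ^ 4 * p.1) < δ₁ / 8
  k8 : 4 * (Q * p.1) ^ 2 * (β ^ 2 + 4 * κ1 * p.1 ^ 3) < 1 / 4
  k9 : 4 * κ1 * p.1 ^ 2 + β ^ 2 * (p.2 * p.1 ^ 5) < Q
  k10 : (4 + Q) * p.1 < 1
  k11 : (tp + 4 * S) * p.1 ^ 2 < 1
  k12 : 4 * β * E0 * p.1 ^ 2 / κ2 < 1 / 4
  k13 : β ^ 2 / 4 * (v * (6 * (S * p.1 ^ 2))) < d / 8

lemma ev_Nev {β S e E0 Q P d s x κ1 κ2 dd π₀ tp v G δ₁ : ℝ} (hd : 0 < d) (hs : 0 < s)
    (hdd : 0 < dd) (hep : 0 < δ₁) (hQ : 0 < Q) (he : 0 < e) :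
    ∀ᶠ p : ℝ × ℝ in 𝓝 (0, 0), Nev β S e E0 Q P d s x κ1 κ2 dd π₀ tp v G δ₁ p := by
  have f3 : ∀ᶠ p : ℝ × ℝ in 𝓝 (0, 0), 4 * β * E0 * p.1 ^ 2 / κ2 * S + 2 * S ^ 2 * p.1 ^ 2 <
      s / 4 := ev_of (by fun_prop) (by
    simp only [ne_eq, OfNat.ofNat_ne_zero, not_false_eq_true, zero_pow, mul_zero, zero_div,
      zero_mul, add_zero]
    positivity)
  have f4 : ∀ᶠ p : ℝ × ℝ in 𝓝 (0, 0), β ^ 2 * v * (p.2 * p.1 ^ 4) < d / 4 :=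
    ev_of (by fun_prop) (by
      simp only [mul_zero, zero_mul]
      positivity)
  have f5 : ∀ᶠ p : ℝ × ℝ in 𝓝 (0, 0), 20 * (G * p.2) / π₀ ^ 2 < dd ^ 2 / 2 :=
    ev_of (by fun_prop) (by
      simp only [mul_zero, zero_div]
      positivity)
  have f6 : ∀ᶠ p : ℝ × ℝ in 𝓝 (0, 0), 12 * (Q ^ 2 * β ^ 2 * e * p.1 ^ 2) < δ₁ / 4 :=
    ev_of (by fun_prop) (by
      simp only [ne_eq, OfNat.ofNat_ne_zero, not_false_eq_true, zero_pow, mul_zero]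
      positivity)
  have f6' : ∀ᶠ p : ℝ × ℝ in 𝓝 (0, 0), 12 * (Q ^ 2 * β ^ 2 * e * p.1 ^ 2) < e / 16 :=
    ev_of (by fun_prop) (by
      simp only [ne_eq, OfNat.ofNat_ne_zero, not_false_eq_true, zero_pow, mul_zero]
      positivity)
  have f7 : ∀ᶠ p : ℝ × ℝ in 𝓝 (0, 0), P * (Q ^ 4 * p.1) < δ₁ / 8 :=
    ev_of (by fun_prop) (by
      simp only [mul_zero]
      positivity)
  have f8 : ∀ᶠ p : ℝ × ℝ in 𝓝 (0, 0), 4 * (Q * p.1) ^ 2 * (β ^ 2 + 4 * κ1 * p.1 ^ 3) < 1 / 4 :=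
    ev_of (by fun_prop) (by
      simp only [ne_eq, OfNat.ofNat_ne_zero, not_false_eq_true, zero_pow, mul_zero, zero_mul]
      norm_num)
  have f9 : ∀ᶠ p : ℝ × ℝ in 𝓝 (0, 0), 4 * κ1 * p.1 ^ 2 + β ^ 2 * (p.2 * p.1 ^ 5) < Q :=
    ev_of (by fun_prop) (by
      simp only [ne_eq, OfNat.ofNat_ne_zero, not_false_eq_true, zero_pow, mul_zero, add_zero]
      exact hQ)
  have f10 : ∀ᶠ p : ℝ × ℝ in 𝓝 (0, 0), (4 + Q) * p.1 < 1 :=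
    ev_of (by fun_prop) (by
      simp only [mul_zero]
      norm_num)
  have f11 : ∀ᶠ p : ℝ × ℝ in 𝓝 (0, 0), (tp + 4 * S) * p.1 ^ 2 < 1 :=
    ev_of (by fun_prop) (by
      simp only [ne_eq, OfNat.ofNat_ne_zero, not_false_eq_true, zero_pow, mul_zero]
      norm_num)
  have f12 : ∀ᶠ p : ℝ × ℝ in 𝓝 (0, 0), 4 * β * E0 * p.1 ^ 2 / κ2 < 1 / 4 :=
    ev_of (by fun_prop) (by
      simp only [ne_eq, OfNat.ofNat_ne_zero, not_false_eq_true, zero_pow, mul_zero, zero_div]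
      norm_num)
  have f13 : ∀ᶠ p : ℝ × ℝ in 𝓝 (0, 0), β ^ 2 / 4 * (v * (6 * (S * p.1 ^ 2))) < d / 8 :=
    ev_of (by fun_prop) (by
      simp only [ne_eq, OfNat.ofNat_ne_zero, not_false_eq_true, zero_pow, mul_zero]
      positivity)
  filter_upwards [f3, f4, f5, f6, f6', f7, f8, f9, f10, f11, f12, f13] with p k3 k4 k5 k6 k6' k7
    k8 k9 k10 k11 k12 k13
  exact ⟨k3, k4, k5, k6, k6', k7, k8, k9, k10, k11, k12, k13⟩

lemma ev_errN {β v y Q δ tp E0 π₀ G z1 : ℝ} {a : ℕ} (hQ : 0 ≤ Q) (hz : 0 < z1)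
    (g1 : β * (2 * v * (5 * Q ^ 2 / (a - 1))) ≤ z1 / 8) (w4 : β * (y * Q ^ 2) * δ ≤ z1 / 8)
    (tz : Q * tp ≤ z1 / 8) :
    ∀ᶠ p : ℝ × ℝ in 𝓝 (0, 0), errF β v y δ (Q ^ 2) G π₀ tp (4 * E0) a p < z1 :=
  ev_errF hz g1 w4 (by rw [Real.sqrt_sq hQ]; exact tz)

lemma ev_eTN {A Q dd κ1 G π₀ κ2 t v δ x : ℝ} (hx : 0 < x) (h1 : A * Q ^ 3 * t ≤ x / 8)
    (h2 : A * Q ^ 2 / t * dd ≤ x / 8) (h3 : A * (v * Q ^ 2) * δ ≤ x / 8) :
    ∀ᶠ p : ℝ × ℝ in 𝓝 (0, 0), eTF A Q dd (4 * κ1) G π₀ κ2 t (v * δ) p < x := by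
  refine ev_of (eTF_cont A Q dd (4 * κ1) G π₀ κ2 t (v * δ)) ?_
  unfold eTF
  simp only [mul_zero, add_zero, zero_div, ne_eq, OfNat.ofNat_ne_zero, not_false_eq_true,
    zero_pow, zero_add]
  have e1 : A * (dd * Q ^ 2 / t + t * Q ^ 3 + v * δ * Q ^ 2) =
    A * Q ^ 2 / t * dd + A * Q ^ 3 * t + A * (v * Q ^ 2) * δ := by ring
  rw [e1]
  linarith

/-- the error of the lower row -/
lemma e3_aux {β v y Q d g s η δ S E0 κ2 u N ξ A H x z1 ε₂ : ℝ} (hy : 0 < y) (hyv : y < v)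
    (hβ : 1 ≤ β) (hE : 0 ≤ E0) (hQ : 0 ≤ Q) (hu : 0 < u) (hN : 0 < N) (hξ : ξ = 1 / (N * u ^ 6))
    (hg : 0 ≤ g) (hd : 0 < d) (H2 : N2 β v y Q d g s η) (H4 : N4 β v y Q E0 A H d s x z1 δ)
    (hε : ε₂ = β * (y * δ + η * (2 * v)) * Q + 2 * β * (v * δ * Q) +
        4 * β * E0 * u ^ 2 / κ2 * S + 2 * S ^ 2 * u ^ 2)
    (k3 : 4 * β * E0 * u ^ 2 / κ2 * S + 2 * S ^ 2 * u ^ 2 < s / 4)
    (k4 : β ^ 2 * v * (ξ * u ^ 4) < d / 4) (hκ : 0 < κ2) (hS : 0 ≤ S) :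
    β ^ 2 / 4 * (v * δ * Q ^ 2 + v / (N * u ^ 2)) + g *
      (2 * (β * (2 * v - y) * Q) * ε₂ + ε₂ ^ 2) ≤ d := by
  have hv : 0 < v := hy.trans hyv
  have h2v : 0 < 2 * v - y := by linarith
  have hδ := H4.δ0
  have w2 := H4.w2
  have w3 := H4.w3
  have ηs := H2.ηs
  have s0 := H2.s0
  have s1 := H2.s1
  have Ls := H2.Ls
  have hη := H2.η0
  have hβ0 : 0 < β := by linarith
  have h1 : ε₂ ≤ s := by
    have e1 : β * (y * δ + η * (2 * v)) * Q + 2 * β * (v * δ * Q) =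
      (β * y * Q + 2 * β * v * Q) * δ + β * (2 * v) * Q * η := by ring
    rw [hε, e1]
    linarith
  have h0 : 0 ≤ ε₂ := by
    rw [hε]
    positivity
  have h2 : g * (2 * (β * (2 * v - y) * Q) * ε₂ + ε₂ ^ 2) ≤ d / 4 := by
    have h3 : 2 * (β * (2 * v - y) * Q) * ε₂ + ε₂ ^ 2 ≤
        (2 * (β * (2 * v - y) * Q) + 1) * s := by
      have h4 : ε₂ ^ 2 ≤ s := by
        calc ε₂ ^ 2 ≤ s ^ 2 := pow_le_pow_left₀ h0 h1 2
          _ = s * s := by ring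
          _ ≤ s * 1 := mul_le_mul_of_nonneg_left s1 s0.le
          _ = s := mul_one s
      have h5 : 2 * (β * (2 * v - y) * Q) * ε₂ ≤ 2 * (β * (2 * v - y) * Q) * s :=
        mul_le_mul_of_nonneg_left h1 (by positivity)
      linarith
    calc g * (2 * (β * (2 * v - y) * Q) * ε₂ + ε₂ ^ 2) ≤
        g * ((2 * (β * (2 * v - y) * Q) + 1) * s) := mul_le_mul_of_nonneg_left h3 hg
      _ = g * (2 * (β * (2 * v - y) * Q) + 1) * s := by ring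
      _ ≤ d / 4 := Ls
  have h6 : β ^ 2 / 4 * (v * δ * Q ^ 2 + v / (N * u ^ 2)) ≤ d / 8 := by
    have e1 : v / (N * u ^ 2) = v * (ξ * u ^ 4) := by
      rw [hξ]
      field_simp
    rw [e1]
    have e2 : β ^ 2 / 4 * (v * δ * Q ^ 2 + v * (ξ * u ^ 4)) =
      (β ^ 2 * (v * Q ^ 2) * δ) / 4 + (β ^ 2 * v * (ξ * u ^ 4)) / 4 := by ring
    rw [e2]
    linarith
  linarith

/-- the error of the upper row -/
lemma e4_aux {β v y Q d s δ S E0 C g0 δ₁ u A x z1 gc cu : ℝ} (hyv : y < v)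
    (hβ : 1 ≤ β) (hy : 0 < y) (hv1 : 1 ≤ v) (hS : 0 ≤ S) (hC : 0 ≤ C) (hd : 0 < d)
    (hg0 : g0 = v * (1 - δ) - y)
    (H4 : N4 β v y Q E0 A (gc * 3 * (1 + cu)) d s x z1 δ) (hδ10 : 0 < δ₁)
    (Ge : β ^ 2 / 4 * ((v - y) * KU C ((v - y) / 2)) * δ₁ ≤ d / 8)
    (k13 : β ^ 2 / 4 * (v * (6 * (S * u ^ 2))) < d / 8) :
    gc * (3 * δ * (1 + cu)) + β ^ 2 / 4 * ((v - y) *
      (KU C g0 * δ₁ + 6 * (S * u ^ 2) / (β * (v + g0)) ^ 2) + 2 * v * δ * Q ^ 2) ≤ d := by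
  have hδ := H4.δ0
  have δv := H4.δv
  have w2 := H4.w2
  have w6 := H4.w6
  have hvy : 0 < v - y := by linarith
  have hg0' : (v - y) / 2 ≤ g0 := by rw [hg0]; linarith
  have hβ0 : 0 < β := by linarith
  have hKU : KU C g0 ≤ KU C ((v - y) / 2) := by
    unfold KU
    have : 4 / g0 ≤ 4 / ((v - y) / 2) :=
      div_le_div_of_nonneg_left (by norm_num) (by positivity) hg0'
    linarith
  have h1 : (v - y) * (KU C g0 * δ₁) ≤ (v - y) * (KU C ((v - y) / 2) * δ₁) :=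
    mul_le_mul_of_nonneg_left (mul_le_mul_of_nonneg_right hKU hδ10.le) hvy.le
  have h2 : (v - y) * (6 * (S * u ^ 2) / (β * (v + g0)) ^ 2) ≤ v * (6 * (S * u ^ 2)) := by
    have h3 : 1 ≤ (β * (v + g0)) ^ 2 := by
      refine one_le_pow₀ ?_
      have : 1 ≤ v + g0 := by linarith
      nlinarith
    have h4 : 6 * (S * u ^ 2) / (β * (v + g0)) ^ 2 ≤ 6 * (S * u ^ 2) :=
      div_le_self (by positivity) h3
    have h5 : 0 ≤ 6 * (S * u ^ 2) / (β * (v + g0)) ^ 2 := by positivity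
    exact mul_le_mul (by linarith) h4 h5 (by linarith)
  have h6 : β ^ 2 / 4 * ((v - y) *
      (KU C g0 * δ₁ + 6 * (S * u ^ 2) / (β * (v + g0)) ^ 2) + 2 * v * δ * Q ^ 2) ≤
      β ^ 2 / 4 * ((v - y) * (KU C ((v - y) / 2) * δ₁) + v * (6 * (S * u ^ 2)) +
        2 * v * δ * Q ^ 2) := by
    refine mul_le_mul_of_nonneg_left ?_ (by positivity)
    rw [mul_add (v - y)]
    linarith
  have e1 : β ^ 2 / 4 * ((v - y) * (KU C ((v - y) / 2) * δ₁) + v * (6 * (S * u ^ 2)) +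
        2 * v * δ * Q ^ 2) = β ^ 2 / 4 * ((v - y) * KU C ((v - y) / 2)) * δ₁ +
        β ^ 2 / 4 * (v * (6 * (S * u ^ 2))) + β ^ 2 * (v * Q ^ 2) * δ / 2 := by ring
  have e2 : gc * (3 * δ * (1 + cu)) = gc * 3 * (1 + cu) * δ := by ring
  rw [e1] at h6
  rw [e2]
  linarith

/-- **The constants of the cross rows, helper607's list.** -/
theorem cstN {β κ S e E0 kC d c0 : ℝ} (hβ : 1 ≤ β) (hκ : 0 ≤ κ) (hκ1 : κ ≤ 1 / 200)
    (he : 0 < e) (hS : 2 * e ≤ S) (hE0 : 1 ≤ E0) (hkC : 0 < kC) (hd : 0 < d) (hc0 : 0 ≤ c0)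
    (hc1 : 2 * c0 ≤ d / 4) :
    ∃ δ dc κ1 κ2 π₀ t δ₁ εT η τ₃ : ℝ, ∃ a : ℕ, 4 * κ1 ≤ kC ∧ 0 ≤ δ ∧ δ ≤ 1 / 100 ∧ 3 ≤ a ∧
      ∃ u0 M : ℝ, 0 < u0 ∧ 0 < M ∧
      ∀ (n : ℕ) (u : ℝ), 2 ≤ n → 0 < u → u ≤ u0 → M ≤ n * u ^ 6 → ∃ ε₁ ε₂ : ℝ,
        Cst n a β u κ δ e S E0 (Q4 E0 e) dc κ1 κ2 π₀ t δ₁ εT η τ₃ ε₁ ε₂ c0 (4 * S) d := by
  obtain ⟨v, hv⟩ : ∃ v, v = 1 + κ := ⟨_, rfl⟩
  obtain ⟨y, hyd⟩ : ∃ y : ℝ, y = 51 / 100 := ⟨_, rfl⟩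
  have hv1 : 1 ≤ v := by linarith
  have hy : 0 < y := by rw [hyd]; norm_num
  have hyv : y < v := by rw [hyd]; linarith
  have hβ0 : 0 < β := by linarith
  have hS0 : 0 ≤ S := by linarith
  obtain ⟨Q, hQ⟩ : ∃ Q, Q = Q4 E0 e := ⟨_, rfl⟩
  have hQ2 : 2 ≤ Q := by rw [hQ]; exact Q4_ge _ _
  have hQ0 : 0 < Q := by linarith
  obtain ⟨g, hg⟩ : ∃ g, g = Gc v := ⟨_, rfl⟩
  have hgp : g = (v - y) / (4 * (2 * v - y) ^ 2) := by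
    rw [hg, hyd]
    rfl
  have hvy : 0 < v - y := by linarith
  have h2v : 0 < 2 * v - y := by linarith
  have hg0 : 0 ≤ g := by rw [hgp]; positivity
  obtain ⟨cu, hcu⟩ : ∃ cu, cu = CU β (CK β) := ⟨_, rfl⟩
  have hCK : 0 ≤ CK β := CK_nonneg
  have hcu0 : 0 ≤ cu := by
    rw [hcu]
    unfold CU
    positivity
  obtain ⟨L0, hL0⟩ : ∃ L0, L0 = 5 + 320 * E0 / (β ^ 2 * e) + 2 * E0 := ⟨_, rfl⟩
  have hL00 : 0 ≤ L0 := by rw [hL0]; positivity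
  obtain ⟨G1, hG1⟩ : ∃ G1, G1 = β ^ 2 / 4 * ((v - y) * KU (CK β) ((v - y) / 2)) := ⟨_, rfl⟩
  have hG10 : 0 ≤ G1 := by
    rw [hG1]
    unfold KU
    positivity
  obtain ⟨δ₁, κ1, x, H1⟩ := ex_N1 (e := e) he hkC hd hCK hG10 hL00
  obtain ⟨s, η, H2⟩ := ex_N2 (Q := Q) hβ hy hyv hQ0.le hd hg0
  obtain ⟨z1, hz1⟩ : ∃ z1, z1 = η * (κ1 / (100 * β ^ 2)) / 2 := ⟨_, rfl⟩
  have hz10 : 0 < z1 := by
    rw [hz1]
    have := H1.k0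
    have := H2.η0
    positivity
  obtain ⟨A, hA⟩ : ∃ A, A = KV ^ 2 * (1000000000000 * (β ^ 2) ^ 5) := ⟨_, rfl⟩
  have hA0 : 0 ≤ A := by rw [hA]; positivity
  obtain ⟨t, dd, tp, H3⟩ := ex_N3 (Q := Q) hQ0.le hCK hA0 H1.ep0 H1.ep1 H1.x0 hz10
  obtain ⟨δ, H4⟩ := ex_N4 (Q := Q) (H := g * 3 * (1 + cu)) hβ0.le hy hyv hQ0.le
    (by linarith : 0 ≤ E0) hA0 (by positivity) hd H2.s0 H1.x0 hz10
  obtain ⟨κ2, π₀, a, H5⟩ := ex_N5 (β := β) (v := v) (y := y) (Q := Q) H1.k0 H4.δ0 H3.d0 hz10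
  obtain ⟨G, hG⟩ : ∃ G, G = 128 * E0 / κ2 ^ 2 := ⟨_, rfl⟩
  have f1 := ev_errN (E0 := E0) (π₀ := π₀) (G := G) hQ0.le hz10 H5.g1 H4.w4 H3.tpz
  have f2 := ev_eTN (κ1 := κ1) (G := G) (π₀ := π₀) (κ2 := κ2) H1.x0 H3.tx H3.dx H4.w5
  have f3 := ev_Nev (β := β) (S := S) (E0 := E0) (P := CK β) (x := x)
    (κ1 := κ1) (κ2 := κ2) (π₀ := π₀) (tp := tp) (v := v) (G := G) hd H2.s0 H3.d0 H1.ep0 hQ0 he
  obtain ⟨ρ, hρ, f⟩ := Metric.eventually_nhds_iff.1 (f1.and (f2.and f3))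
  refine ⟨δ, dd, κ1, κ2, π₀, t, δ₁, x, η, tp, a, H1.kC', H4.δ0.le, H4.δ1, H5.a3, ρ / 2,
    max 1 (2 / ρ), by positivity, by positivity, ?_⟩
  intro n u hn hu huu hM
  have hn' : (0 : ℝ) < n := by exact_mod_cast (by omega : 0 < n)
  have hnu : 0 < (n : ℝ) * u ^ 6 := by positivity
  have hM1 : (1 : ℝ) ≤ n * u ^ 6 := (le_max_left _ _).trans hM
  have hM2 : 2 / ρ ≤ n * u ^ 6 := (le_max_right _ _).trans hM
  obtain ⟨ξ, hξ⟩ : ∃ ξ, ξ = 1 / ((n : ℝ) * u ^ 6) := ⟨_, rfl⟩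
  have hξ0 : 0 < ξ := by rw [hξ]; positivity
  have hξρ : ξ ≤ ρ / 2 := by
    rw [hξ, div_le_iff₀ hnu]
    rw [div_le_iff₀ hρ] at hM2
    linarith
  obtain ⟨k1, k2, k⟩ := f (y := (u, ξ)) (by
    rw [Prod.dist_eq, Real.dist_eq, Real.dist_eq]
    simp only [sub_zero]
    rw [abs_of_pos hu, abs_of_pos hξ0]
    exact max_lt (by linarith) (by linarith))
  have k3 := k.k3
  have k4 := k.k4
  have k5 := k.k5
  have k6 := k.k6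
  have k6' := k.k6'
  have k7 := k.k7
  have k9 := k.k9
  have k10 := k.k10
  have k11 := k.k11
  have k13 := k.k13
  simp only at k3 k4 k5 k6 k6' k7 k9 k10 k11 k13
  have hQu0 : 0 < Q * u := by positivity
  have hQu : Q * u ≤ 1 := by linarith
  have hu4 : 4 * u ≤ 1 := by linarith
  have hu1 : u ≤ 1 := by linarith
  have hu2 : 0 < u ^ 2 := by positivity
  have htpu : 0 ≤ tp * u ^ 2 := mul_nonneg H3.tp0.le hu2.le
  have hSu : 0 ≤ S * u ^ 2 := mul_nonneg hS0 hu2.le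
  have e11 : (tp + 4 * S) * u ^ 2 = tp * u ^ 2 + 4 * (S * u ^ 2) := by ring
  rw [e11] at k11
  have hgX : gX n u E0 κ2 = G * (1 / (n * u ^ 6)) := by
    rw [hG]
    unfold gX
    have := H5.k0
    field_simp
  have hδ₁ := H1.ep0
  have hxd : x / δ₁ ≤ δ₁ / 48 := by
    rw [div_le_iff₀ hδ₁]
    linarith [H1.xb]
  have hxe : x / δ₁ ≤ e / 384 := by
    rw [div_le_iff₀ hδ₁]
    linarith [H1.xc]
  have e2x : 2 * x / δ₁ = 2 * (x / δ₁) := by ring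
  obtain ⟨ε₂, hε⟩ : ∃ ε₂, ε₂ = β * (y * δ + η * (2 * v)) * Q + 2 * β * (v * δ * Q) +
    4 * β * E0 * u ^ 2 / κ2 * S + 2 * S ^ 2 * u ^ 2 := ⟨_, rfl⟩
  refine ⟨4 * β * E0 * u ^ 2 / κ2, ε₂, ?_⟩
  rw [← hQ]
  exact
    { hn := hn
      ha := H5.a3
      hβ := hβ
      hu := hu
      hu4 := hu4
      hκ := hκ
      hκ1 := hκ1
      hδ := H4.δ0.le
      hδ1 := H4.δ1
      he := he
      hS := hS
      hSu := by linarith
      hE₀ := hE0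
      hC4 := hQ
      hC4u := hQu
      hdc := H3.d0
      hdC := by linarith [H3.d1]
      hκ1p := H1.k0
      hκ11 := H1.k1
      hκ2p := H5.k0
      hκ12 := H5.ka
      hnu := hM1
      hsm := k.k8.le
      hκθ := by
        have e1 : β ^ 2 / (n : ℝ) = β ^ 2 * (ξ * u ^ 5) * u := by
          rw [hξ]
          field_simp
        have e2 : 4 * κ1 * u ^ 3 + β ^ 2 * (ξ * u ^ 5) * u =
          (4 * κ1 * u ^ 2 + β ^ 2 * (ξ * u ^ 5)) * u := by ring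
        rw [e1, e2]
        exact mul_le_mul_of_nonneg_right k9.le hu.le
      hπ := H5.p0
      hπ1 := H5.pa
      hπ2 := H5.pb
      hD := by
        rw [hgX, ← hξ]
        linarith [H5.g2]
      ht := H3.t0
      ht1 := H3.t1
      hδ10 := hδ₁
      hδ11 := H1.ep1
      heT := by
        have e1 := eT_eq (n := n) (Q := Q) (dd := dd) (k := 4 * κ1) (B0 := β ^ 2) (G := G)
          (π₀ := π₀) (κ2 := κ2) (t := t) (w := v * δ) (u := u) (by omega) hu H5.p0 H5.k0 H3.t0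
        unfold eX
        rw [hgX, ← hv, mul_comm u (v * δ), e1, ← hξ, ← hA]
        exact mul_le_mul_of_nonneg_right k2.le (by positivity)
      n1 := by
        have e1 : CK β * (dd * Q ^ 2 + Q ^ 4 * u + 4 * κ1) + 16 * (4 * κ1) + x =
          CK β * Q ^ 2 * dd + CK β * (Q ^ 4 * u) + 4 * (CK β + 16) * κ1 + x := by ring
        rw [e1]
        linarith [H3.dP, H1.kP, H1.xa, H1.ep0]
      n2 := H3.dep
      n3 := by
        rw [e2x]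
        linarith
      n4 := by linarith [H1.ke]
      n5 := by
        rw [e2x]
        linarith
      hη := H2.η0.le
      hη1 := H2.η1
      hτ := H3.tp0
      hτ1 := by linarith
      herr := by
        rw [hgX, ← hv, ← hyd, errU_eq hn' hu, ← hξ, ← hz1]
        exact k1.le
      hε1 := le_rfl
      hε11 := k.k12.le
      hε2 := by
        rw [hε, hyd, hv]
      e3 := by
        have h := e3_aux hy hyv hβ (by linarith) hQ0.le hu hn' hξ hg0 hd H2 H4 hε k3 k4 H5.k0 hS0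
        rw [hg, hyd, hv] at h
        exact h
      e4 := by
        have h := e4_aux (C := CK β) (g0 := v * (1 - δ) - y) (gc := g) (cu := cu) hyv hβ hy hv1
          hS0 hCK hd rfl H4 hδ₁ (by rw [← hG1]; exact H1.Ge) k13
        rw [hg, hyd, hv, hcu] at h
        exact h
      hc0 := hc0
      eS := by
        have h1 := H1.kL
        have h2 := H4.w1
        rw [← hL0]
        linarith
      haS := le_rfl
      haS1 := by linarith }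

end Vale.Agent.P146.H437
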