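import Vale.Agent.P146.H437.CrsN
import Vale.Agent.P146.H444.Spec

/-!
# P146, lower half: the cross rows (helper437; on helper607's `Cst.crs`)
-/

open Set

namespace Vale.Agent.P146.H437

open Vale.Agent.P146.H607 (CK Cst Q4 mX mX_one_ge mX_one_le CK_nonneg)
open Vale.Agent.P146.H93.Pnum (CU)
open Vale.Agent.P146.H758 (Ap)
open Vale.Agent.P146.H560 (psiU)
open Vale.Agent.P146.H865 (Crs)
open Vale.Agent.P146.U

/-- the scale from the exponent -/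
lemma n_u6 {n : ℕ} (hn : 0 < n) {K u : ℝ} (hK : 1 ≤ K)
    (hu : K * (n : ℝ) ^ (-(1 / 6) : ℝ) ≤ u) : K ≤ n * u ^ 6 := by
  have hn' : (0 : ℝ) < n := by exact_mod_cast hn
  have hp : (0 : ℝ) < (n : ℝ) ^ (-(1 / 6) : ℝ) := Real.rpow_pos_of_pos hn' _
  have h1 : ((n : ℝ) ^ (-(1 / 6) : ℝ)) ^ 6 = (n : ℝ)⁻¹ := by
    rw [← Real.rpow_natCast, ← Real.rpow_mul hn'.le]
    norm_num
    exact Real.rpow_neg_one _
  have h2 : (K * (n : ℝ) ^ (-(1 / 6) : ℝ)) ^ 6 ≤ u ^ 6 :=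
    pow_le_pow_left₀ (by positivity) hu 6
  rw [mul_pow, h1] at h2
  have h3 : K ≤ K ^ 6 := le_self_pow₀ hK (by norm_num)
  have h4 : (n : ℝ) * (K ^ 6 * (n : ℝ)⁻¹) = K ^ 6 := by field_simp
  have h5 := mul_le_mul_of_nonneg_left h2 hn'.le
  rw [h4] at h5
  linarith

/-- **CRS**: the cross rows. -/
theorem crsBox {β : ℝ} (hβ : 1 < β) (h2 : Ex2Out β) (hL : LStar β) : H444.CrsBox β := by
  have hβ0 : 0 < β := by linarith
  have hCK : 0 ≤ CK β := CK_nonneg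
  have hcu0 : 0 ≤ CU β (CK β) := by
    unfold CU
    positivity
  refine ⟨4 * CU β (CK β) + 3, by linarith, ?_⟩
  intro κ hκ0 hκ1
  refine ⟨1, fun S hS => ⟨1 / 2, by norm_num, ?_⟩⟩
  intro τ hτ hτ1 B d hB hd
  obtain ⟨C, n1, hC, hn1, hap⟩ := apX hβ0 h2 hL
  obtain ⟨E0, hE0⟩ : ∃ E0, E0 = max (C * (B + 1)) 1 := ⟨_, rfl⟩
  have hE01 : 1 ≤ E0 := by rw [hE0]; exact le_max_right _ _
  have hE02 : C * (B + 1) ≤ E0 := by rw [hE0]; exact le_max_left _ _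
  obtain ⟨ε, K0, n2, hε, hK0, hn2, hcg⟩ := cgX hβ0 h2 hL (4 * S) (c := d / 8) (by positivity)
  obtain ⟨δ, dc, κ1, κ2, π₀, t, δ₁, εT, η, τ₃, a, hkC, hδ, hδ1, ha, u0, M, hu0, hM, hN⟩ :=
    cstN (β := β) (κ := κ) (S := S) (e := τ) (E0 := E0) (kC := ε) (d := d) (c0 := d / 8) hβ.le
      hκ0.le hκ1 hτ (by linarith) hE01 hε hd (by positivity) (by linarith)
  obtain ⟨n3, hn3, hev⟩ := ev_one (1 / u0)
  obtain ⟨K, hK⟩ : ∃ K, K = max (max 2 K0) M := ⟨_, rfl⟩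
  have hK2 : 2 ≤ K := by rw [hK]; exact (le_max_left _ _).trans (le_max_left _ _)
  have hKK : K0 ≤ K := by rw [hK]; exact (le_max_right _ _).trans (le_max_left _ _)
  have hKM : M ≤ K := by rw [hK]; exact le_max_right _ _
  refine ⟨K, max (max n1 n2) (max n3 2), ?_⟩
  intro n hn u hu1 hu2 hbx
  have hn1' : n1 ≤ n := ((le_max_left _ _).trans (le_max_left _ _)).trans hn
  have hn2' : n2 ≤ n := ((le_max_right _ _).trans (le_max_left _ _)).trans hn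
  have hn3' : n3 ≤ n := ((le_max_left _ _).trans (le_max_right _ _)).trans hn
  have hn4' : 2 ≤ n := ((le_max_right _ _).trans (le_max_right _ _)).trans hn
  have hnR : (0 : ℝ) < n := by exact_mod_cast (by omega : 0 < n)
  have hp : (0 : ℝ) < (n : ℝ) ^ (-(1 / 6) : ℝ) := Real.rpow_pos_of_pos hnR _
  have hu : 0 < u := lt_of_lt_of_le (by positivity) hu1
  have h6 := n_u6 (by omega) (by linarith) hu1
  have huu : u ≤ u0 := by
    have h := (hev n hn3' u hu hu2).1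
    rw [one_div, inv_mul_le_iff₀ hu0] at h
    linarith
  obtain ⟨ε₁, ε₂, N⟩ := hN n u hn4' hu huu (hKM.trans h6)
  have hA := hap n hn1' u B ((mul_le_mul_of_nonneg_right hK2 hp.le).trans hu1) hu2 hB hbx
    (u * (51 / 100 * (1 - δ))) (by nlinarith) (by nlinarith)
  have hNN : 0 ≤ (n : ℝ) * u ^ 5 := by positivity
  have hA' : Ap n β (u * (51 / 100 * (1 - δ))) (4 * u) (8 * u ^ 3)
      (P1 n β (u * (51 / 100 * (1 - δ)))) (E0 * (n * u ^ 5)) := by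
    have h7 : C * (B + 1) * (n * u ^ 5) ≤ E0 * (n * u ^ 5) :=
      mul_le_mul_of_nonneg_right hE02 hNN
    exact ⟨fun V h4 h5 => by linarith [hA.lo V h4 h5], fun V h4 h5 => by linarith [hA.up V h4 h5]⟩
  refine N.crs hA' ?_
  intro V0 hV0 hV1
  have ha1 : 1 ≤ a := by omega
  have hx1 := mX_one_ge (v := 1 + κ) (y := 51 / 100) ha1 hu.le (by norm_num) hδ
  have hx2 := mX_one_le (v := 1 + κ) (y := 51 / 100) ha1 hu (by norm_num) hδ
  exact hcg n hn2' u ((mul_le_mul_of_nonneg_right hKK hp.le).trans hu1) hu2 _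
    (by nlinarith) (by nlinarith) V0 hV0
    (hV1.trans (mul_le_mul_of_nonneg_right hkC (by positivity)))

end Vale.Agent.P146.H437
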