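import Vale.Agent.P146.H437.Grid

/-!
# P146, lower half: the lower grid, second form (helper437)

`RowL2`: the energy row with the factor `1 - η` and the error `e1` (used only at the shares below
the cap `C'`) and a crude sign `-(r d2) ≤ θ` at every share.  `inL_grid2`: the field `inL` of
`H865.Dat` from `RowL2`.
-/

open MeasureTheory ProbabilityTheory Set

namespace Vale.Agent.P146.H437

open Vale.Agent.P157 Vale.Agent.P157.Lv Vale.Agent.P157.Lv.Sy
open Vale.Agent.P146.H425 Vale.Agent.P146.H325 Vale.Agent.P146.H93 Vale.Agent.P146.U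
open Vale.Agent.P146.H332 Vale.Agent.P146.R1 Vale.Agent.P146.H479 Vale.Agent.P146.H560

set_option linter.unusedSectionVars false

/-- **The lower grid, second form.** -/
theorem gridL2 {C' K0 r E S T1 d1 d2 e1 η γ : ℝ} {f : ℝ → ℝ} {B : ℝ → ℝ → ℝ} {N : ℕ} {W : Set ℝ}
    (hr : 0 < r) (hN : 0 < N) (hS : T1 < S) (hT1 : 0 ≤ T1) (hCS : C' ≤ S)
    (ht : T1 + (S - T1) / N ≤ C') (he1 : 0 ≤ e1) (hd2 : 0 ≤ d2) (hη : η ≤ 1)
    (hB1 : ∀ T ∈ Icc T1 S, ∀ w' ∈ W, f w' ≤ B T w')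
    (hB2 : ∀ T ∈ Icc T1 S, B T 0 ≤ B S 0) (hBT : B T1 0 = f 0)
    (hfg : B S 0 ≤ f 0 + E * r) (hK : (B S 0 - f 0) / r ≤ K0)
    (hcap : K0 + (C' / 4 * e1 + S * d2 + N * d1 / r) <
      (1 - η) * (max (C' - (T1 + (S - T1) / N)) 0) ^ 3 / 12)
    (hL : ∀ T ∈ Icc (T1 + (S - T1) / N) S, ∃ θ α : ℝ,
      (∀ w' ∈ W, B T w' ≤ B T 0 + γ * α * w' + d1) ∧
      (∀ T' ∈ Icc T1 S, B T' 0 ≤ B T 0 + θ * (T' - T) + d1) ∧
      -(r * d2) ≤ θ ∧ r / 4 * ((1 - η) * (max (α - T) 0) ^ 2 - e1) ≤ θ) :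
    ∃ α : ℝ, α ≤ C' ∧
      (∀ w' ∈ W, f w' ≤ f 0 + γ * α * w' + (d1 + E * r)) ∧
      (1 - η) * (max (α - (T1 + (S - T1) / N)) 0) ^ 3 / 12 ≤ (B S 0 - f 0) / r +
        (C' / 4 * e1 + S * d2 + N * d1 / r) := by
  classical
  have hN' : (0 : ℝ) < N := by exact_mod_cast hN
  obtain ⟨h, hhd⟩ : ∃ h, h = (S - T1) / N := ⟨_, rfl⟩
  rw [← hhd] at hL hcap ht ⊢
  have hh0 : 0 < h := by rw [hhd]; exact div_pos (by linarith) hN'
  have hNh : (N : ℝ) * h = S - T1 := by rw [hhd]; field_simp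
  have hmem : ∀ k : ℕ, k < N → T1 + (k + 1) * h ∈ Icc (T1 + h) S := by
    intro k hk
    have hk' : ((k + 1 : ℕ) : ℝ) ≤ N := by exact_mod_cast hk
    have h1 : ((k + 1 : ℕ) : ℝ) * h ≤ N * h := mul_le_mul_of_nonneg_right hk' hh0.le
    push_cast at h1
    have h2 : 0 ≤ (k : ℝ) * h := by positivity
    exact ⟨by linarith, by linarith⟩
  have hex : ∀ k : ℕ, ∃ θ α : ℝ, k < N → (
      (∀ w' ∈ W, B (T1 + (k + 1) * h) w' ≤
        B (T1 + (k + 1) * h) 0 + γ * α * w' + d1) ∧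
      (∀ T' ∈ Icc T1 S, B T' 0 ≤ B (T1 + (k + 1) * h) 0 + θ * (T' - (T1 + (k + 1) * h)) + d1) ∧
      -(r * d2) ≤ θ ∧ r / 4 * ((1 - η) * (max (α - (T1 + (k + 1) * h)) 0) ^ 2 - e1) ≤ θ) := by
    intro k
    by_cases hk : k < N
    · obtain ⟨θ, α, h1⟩ := hL _ (hmem k hk)
      exact ⟨θ, α, fun _ => h1⟩
    · exact ⟨0, 0, fun h => absurd h hk⟩
  choose θ α hα using hex
  -- the points below the cap
  obtain ⟨J, hJ⟩ : ∃ J : Finset ℕ,
      J = (Finset.range N).filter fun k : ℕ => T1 + ((k : ℝ) + 1) * h ≤ C' := ⟨_, rfl⟩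
  have hJm : ∀ k, k ∈ J ↔ k < N ∧ T1 + ((k : ℝ) + 1) * h ≤ C' := by
    intro k
    rw [hJ, Finset.mem_filter, Finset.mem_range]
  have h0J : 0 ∈ J := by
    rw [hJm]
    refine ⟨hN, ?_⟩
    push_cast
    linarith
  obtain ⟨j, hj, hjmin⟩ := Finset.exists_min_image J α ⟨0, h0J⟩
  have hjN := ((hJm j).1 hj).1
  have hT : ∀ k < N, T1 + (k + 1) * h ∈ Icc T1 S := fun k hk =>
    ⟨by linarith [(hmem k hk).1], (hmem k hk).2⟩
  -- the sum for any number below all the responses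
  have main : ∀ a : ℝ, a ≤ C' → (∀ k ∈ J, a ≤ α k) →
      (1 - η) * (max (a - (T1 + h)) 0) ^ 3 / 12 ≤ (B S 0 - f 0) / r +
        (C' / 4 * e1 + S * d2 + N * d1 / r) := by
    intro a haC ha
    have hstep : ∀ k < N, r / 4 * ((1 - η) * (h * (max (a - (T1 + (k + 1) * h)) 0) ^ 2) -
        (if k ∈ J then h * e1 else 0)) - r * (h * d2) - d1 ≤
        B (T1 + (k + 1) * h) 0 - B (T1 + k * h) 0 := by
      intro k hk
      obtain ⟨h1, h2, h3, h3'⟩ := hα k hk
      have hk0 : T1 + (k : ℝ) * h ∈ Icc T1 S := by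
        have := (hT k hk).2
        have h5 : 0 ≤ (k : ℝ) * h := by positivity
        exact ⟨by linarith, by linarith⟩
      have h4 := h2 _ hk0
      have e1' : T1 + k * h - (T1 + (k + 1) * h) = -h := by ring
      rw [e1'] at h4
      have hrd : 0 ≤ r * (h * d2) := by positivity
      by_cases hkJ : k ∈ J
      · rw [if_pos hkJ]
        have h5 : r / 4 * ((1 - η) * (max (α k - (T1 + (k + 1) * h)) 0) ^ 2 - e1) * h ≤
            θ k * h := mul_le_mul_of_nonneg_right h3' hh0.le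
        have h6 : (max (a - (T1 + (k + 1) * h)) 0) ^ 2 ≤
            (max (α k - (T1 + (k + 1) * h)) 0) ^ 2 :=
          pow_le_pow_left₀ (le_max_right _ _) (max_le_max (by linarith [ha k hkJ]) le_rfl) 2
        have h7 : 0 ≤ r / 4 * h * (1 - η) := by
          have : 0 ≤ 1 - η := by linarith
          positivity
        have h8 := mul_le_mul_of_nonneg_left h6 h7
        nlinarith
      · rw [if_neg hkJ]
        have hkC : C' < T1 + ((k : ℝ) + 1) * h := by
          by_contra hc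
          exact hkJ ((hJm k).2 ⟨hk, not_lt.1 hc⟩)
        have h6 : max (a - (T1 + (k + 1) * h)) 0 = 0 := max_eq_right (by linarith)
        rw [h6]
        have h5 : -(r * d2) * h ≤ θ k * h := mul_le_mul_of_nonneg_right h3 hh0.le
        nlinarith
    have hsum : ∀ M : ℕ, M ≤ N → r / 4 *
        ((1 - η) * (∑ k ∈ Finset.range M, h * (max (a - (T1 + (k + 1) * h)) 0) ^ 2) -
          ∑ k ∈ Finset.range M, (if k ∈ J then h * e1 else 0)) - r * (M * h * d2) -
          M * d1 ≤ B (T1 + M * h) 0 - B T1 0 := by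
      intro M
      induction M with
      | zero => intro _; simp
      | succ M ih =>
        intro hM
        have h1 := ih (by omega)
        have h2 := hstep M (by omega)
        rw [Finset.sum_range_succ, Finset.sum_range_succ]
        push_cast
        nlinarith
    -- the total length of the intervals below the cap
    have hlen : ∀ M : ℕ, M ≤ N → ∑ k ∈ Finset.range M, (if k ∈ J then h * e1 else 0) ≤
        min (M * h) C' * e1 := by
      intro M
      induction M with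
      | zero =>
        intro _
        have : 0 ≤ C' := by linarith
        simp only [Finset.range_zero, Finset.sum_empty, CharP.cast_eq_zero, zero_mul]
        rw [min_eq_left this, zero_mul]
      | succ M ih =>
        intro hM
        have h1 := ih (by omega)
        rw [Finset.sum_range_succ]
        by_cases hMJ : M ∈ J
        · rw [if_pos hMJ]
          have h2 := ((hJm M).1 hMJ).2
          have h3 : ((M + 1 : ℕ) : ℝ) * h ≤ C' := by push_cast; linarith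
          rw [min_eq_left h3]
          have h4 : min ((M : ℝ) * h) C' * e1 ≤ (M : ℝ) * h * e1 :=
            mul_le_mul_of_nonneg_right (min_le_left _ _) he1
          push_cast
          nlinarith
        · rw [if_neg hMJ, add_zero]
          refine h1.trans (mul_le_mul_of_nonneg_right (min_le_min ?_ le_rfl) he1)
          push_cast
          nlinarith
    have h1 := hsum N le_rfl
    have h1' := hlen N le_rfl
    have h1'' : min ((N : ℝ) * h) C' * e1 ≤ C' * e1 :=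
      mul_le_mul_of_nonneg_right (min_le_right _ _) he1
    have h2 := sum_sq_lo (a := a) (t0 := T1) hh0.le N
    have eS : T1 + (N : ℝ) * h = S := by linarith
    rw [eS, hBT, hNh] at h1
    have h3 : max (a - (T1 + (N + 1) * h)) 0 = 0 := by
      refine max_eq_right ?_
      have h5 : T1 + ((N : ℝ) + 1) * h = S + h := by linarith
      rw [h5]
      linarith
    rw [h3] at h2
    have hη' : 0 ≤ 1 - η := by linarith
    have h6 : r / 4 * ((1 - η) * ((max (a - (T1 + h)) 0) ^ 3 / 3) - C' * e1) - r * (S * d2) -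
        N * d1 ≤ B S 0 - f 0 := by
      have h7 : (1 - η) * ((max (a - (T1 + h)) 0) ^ 3 / 3) ≤ (1 - η) *
          (∑ k ∈ Finset.range N, h * (max (a - (T1 + (k + 1) * h)) 0) ^ 2) := by
        refine mul_le_mul_of_nonneg_left ?_ hη'
        refine le_trans (le_of_eq ?_) h2
        ring
      have h8 : r / 4 * ((1 - η) * ((max (a - (T1 + h)) 0) ^ 3 / 3) - C' * e1) ≤ r / 4 *
          ((1 - η) * (∑ k ∈ Finset.range N, h * (max (a - (T1 + (k + 1) * h)) 0) ^ 2) -
          ∑ k ∈ Finset.range N, (if k ∈ J then h * e1 else 0)) :=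
        mul_le_mul_of_nonneg_left (by linarith) (by positivity)
      have h9 : r * ((S - T1) * d2) ≤ r * (S * d2) :=
        mul_le_mul_of_nonneg_left (mul_le_mul_of_nonneg_right (by linarith) hd2) hr.le
      linarith
    have h8 : (1 - η) * (max (a - (T1 + h)) 0) ^ 3 / 12 * r ≤
        (B S 0 - f 0) + (C' / 4 * e1 * r + S * d2 * r + N * d1) := by nlinarith
    have h9 : (1 - η) * (max (a - (T1 + h)) 0) ^ 3 / 12 ≤
        ((B S 0 - f 0) + (C' / 4 * e1 * r + S * d2 * r + N * d1)) / r := by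
      rw [le_div_iff₀ hr]
      exact h8
    refine h9.trans (le_of_eq ?_)
    field_simp
  have hαC : α j ≤ C' := by
    by_contra hcon
    rw [not_le] at hcon
    have h1 := main C' le_rfl fun k hk => hcon.le.trans (hjmin k hk)
    linarith
  refine ⟨α j, hαC, fun w' hw' => ?_, main _ hαC hjmin⟩
  have h1 := hB1 _ (hT j hjN) w' hw'
  have h2 := (hα j hjN).1 w' hw'
  have h3 := hB2 _ (hT j hjN)
  linarith

variable {n N : ℕ} {β κ τ T1 u S r C0 C C' E K0 d1 d2 e1 η : ℝ} {W : Set ℝ}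

/-- The lower rows at the shares `T ∈ [τ + (S - τ) / N, S]`, field `0`; field on the level `3`
(exponent `1 + r`).  Second form: the error `e1` is used only at the shares below the cap. -/
def RowL2 (n : ℕ) (β κ u S τ r : ℝ) (N : ℕ) (η e1 d1 d2 : ℝ) (W : Set ℝ) : Prop :=
  ∀ T ∈ Icc (τ + (S - τ) / N) S, ∃ θ α : ℝ,
    (∀ w' ∈ W, psiN n β τ u S 1 (1 + r) (1 + κ) T 0 w' ≤
      psiN n β τ u S 1 (1 + r) (1 + κ) T 0 0 + 1 / (4 * β) * α * w' + d1) ∧
    (∀ T' ∈ Icc τ S, psiN n β τ u S 1 (1 + r) (1 + κ) T' 0 0 ≤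
      psiN n β τ u S 1 (1 + r) (1 + κ) T 0 0 + θ * (T' - T) + d1) ∧
    -(r * d2) ≤ θ ∧ r / 4 * ((1 - η) * (max (α - T) 0) ^ 2 - e1) ≤ θ

/-- **The lower row at the exponent `1`, field `0`** (`inL` of `H865.Dat`), from `RowL2`. -/
theorem inL_grid2 (hn : 0 < n) (hβ : 0 < β) (hu : 0 < u) (hκ : 0 < κ)
    (h2 : (1 + (1 + κ)) * u ≤ 1) (hτ : 0 < τ) (hτS : τ < S) (hCS : C' ≤ S)
    (ht : τ + (S - τ) / N ≤ C') (he1 : 0 ≤ e1) (hd2 : 0 ≤ d2) (hη0 : 0 ≤ η) (hη : η ≤ 1)
    (hr : 0 < r) (hrκ : r ≤ κ) (hN : 0 < N) (hW : W ⊆ Icc 0 1)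
    (hE : psiU n β (1 + κ) τ u S (1 + (1 + κ)) 0 ≤ psiU n β κ τ u S (1 + κ) 0 + E)
    (hcap : E + (C' / 4 * e1 + S * d2 + N * d1 / r) <
      (1 - η) * (max (C' - (τ + (S - τ) / N)) 0) ^ 3 / 12)
    (hRL : RowL2 n β κ u S τ r N η e1 d1 d2 W) :
    ∃ α K : ℝ, α ≤ C' ∧ K ≤ E ∧
      (∀ w' ∈ W, psiU n β κ τ u S 1 w' ≤ psiU n β κ τ u S 1 0 + α / (4 * β) * w' +
        (d1 + E * r)) ∧
      psiU n β κ τ u S 1 0 + K * κ ≤ psiU n β κ τ u S (1 + κ) 0 ∧
      (max α 0) ^ 3 / 12 ≤ K + (η * (max C' 0) ^ 3 / 12 +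
        (τ + (S - τ) / N) * (max C' 0) ^ 2 / 4 + (C' / 4 * e1 + S * d2 + N * d1 / r)) := by
  have h1 : (1 + κ) * u ≤ 1 := by nlinarith
  have ha : (51 : ℝ) / 100 ≤ 1 := by norm_num
  have hav : (1 : ℝ) ≤ 1 + r := by linarith
  have hvz : 1 + r ≤ 1 + κ := by linarith
  -- the functions
  have hfT : ∀ w', psiN n β τ u S 1 (1 + r) (1 + κ) τ w' 0 = psiU n β κ τ u S 1 w' :=
    fun w' => psiN_T1 hu ha hav hvz h1
  have hfT0 : psiN n β τ u S 1 (1 + r) (1 + κ) τ 0 0 = psiU n β κ τ u S 1 0 := hfT 0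
  have hfS : psiN n β τ u S 1 (1 + r) (1 + κ) S 0 0 = psiU n β κ τ u S (1 + r) 0 :=
    psiN_S hu ha hav hvz h1
  -- convexity in the exponent
  obtain ⟨f, hf⟩ : ∃ f, f = psiU n β κ τ u S (1 + κ) 0 := ⟨_, rfl⟩
  obtain ⟨g, hg⟩ : ∃ g, g = psiU n β κ τ u S (1 + r) 0 := ⟨_, rfl⟩
  obtain ⟨p, hp⟩ : ∃ p, p = psiU n β κ τ u S 1 0 := ⟨_, rfl⟩
  have hc : g * κ ≤ (κ - r) * p + r * f := by
    have hc := psiU_conv (n := n) (β := β) (T1 := τ) (v1 := 1) (v2 := 1 + κ) (α := 1 - r / κ)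
      (γ := r / κ) hn hu (by norm_num) (by linarith) (by linarith) le_rfl h1
      (by
        have : r / κ ≤ 1 := by rw [div_le_one hκ]; exact hrκ
        linarith) (by positivity) (by ring) S 0
    have e : (1 - r / κ) * 1 + r / κ * (1 + κ) = 1 + r := by
      field_simp
      ring
    rw [e, ← hf, ← hg, ← hp] at hc
    have h5 := mul_le_mul_of_nonneg_right hc hκ.le
    refine h5.trans (le_of_eq ?_)
    field_simp
  have hfp : f - p ≤ κ * E := by
    have h3 := lower_le (β := β) (τ := τ) (S := S) (r := κ) hn hu hκ.le h2 hκ.le le_rfl 0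
    have e : 1 + κ - κ = 1 := by ring
    rw [e, ← hf, ← hp] at h3
    rw [← hf] at hE
    have h4 := mul_le_mul_of_nonneg_left (show psiU n β (1 + κ) τ u S (1 + (1 + κ)) 0 - f ≤ E by
      linarith) hκ.le
    linarith
  have hK : (g - p) / r ≤ E := by
    rw [div_le_iff₀ hr]
    have h5 : (g - p) * κ ≤ (E * r) * κ := by nlinarith
    exact le_of_mul_le_mul_right h5 hκ
  obtain ⟨α, hα1, hα2, hα3⟩ := gridL2 (γ := 1 / (4 * β)) (C' := C') (K0 := E) (r := r) (E := E)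
    (S := S) (T1 := τ) (d1 := d1) (d2 := d2) (e1 := e1) (η := η) (N := N) (W := W)
    (f := fun w' => psiU n β κ τ u S 1 w')
    (B := fun T w' => psiN n β τ u S 1 (1 + r) (1 + κ) T 0 w')
    hr hN hτS hτ.le hCS ht he1 hd2 hη
    (fun T hT w' hw' => by
      show psiU n β κ τ u S 1 w' ≤ psiN n β τ u S 1 (1 + r) (1 + κ) T 0 w'
      rw [← hfT w']
      exact psiN_mono hn hβ.le hu ha hav hvz h1 le_rfl hT.1 hT.2 le_rfl le_rfl
        (hW hw').1 (by ring))
    (fun T hT => psiN_mono hn hβ.le hu ha hav hvz h1 hT.1 hT.2 le_rfl le_rfl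
      le_rfl le_rfl rfl)
    hfT0
    (by
      show psiN n β τ u S 1 (1 + r) (1 + κ) S 0 0 ≤ psiU n β κ τ u S 1 0 + E * r
      rw [hfS, ← hg, ← hp]
      have := (div_le_iff₀ hr).1 hK
      linarith)
    (by
      show (psiN n β τ u S 1 (1 + r) (1 + κ) S 0 0 - psiU n β κ τ u S 1 0) / r ≤ E
      rw [hfS, ← hg, ← hp]
      exact hK)
    hcap hRL
  have hα3' : (1 - η) * (max (α - (τ + (S - τ) / N)) 0) ^ 3 / 12 ≤ (g - p) / r +
      (C' / 4 * e1 + S * d2 + N * d1 / r) := by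
    have : (psiN n β τ u S 1 (1 + r) (1 + κ) S 0 0 - psiU n β κ τ u S 1 0) / r = (g - p) / r := by
      rw [hfS, ← hg, ← hp]
    rw [← this]
    exact hα3
  refine ⟨α, (g - p) / r, hα1, hK, fun w' hw' => ?_, ?_, ?_⟩
  · have := hα2 w' hw'
    have e : 1 / (4 * β) * α * w' = α / (4 * β) * w' := by ring
    rwa [e] at this
  · rw [← hf, ← hp]
    have h6 : (g - p) / r * κ ≤ f - p := by
      rw [div_mul_eq_mul_div, div_le_iff₀ hr]
      linarith
    linarith
  · have hN' : (0 : ℝ) < N := Nat.cast_pos.2 hN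
    have ht' : 0 ≤ τ + (S - τ) / N := by
      have : 0 ≤ (S - τ) / N := div_nonneg (by linarith) hN'.le
      linarith
    have h5 := cube_shift (a := α) ht' hα1
    have h6 : (max (α - (τ + (S - τ) / N)) 0) ^ 3 ≤ (max C' 0) ^ 3 :=
      pow_le_pow_left₀ (le_max_right _ _) (max_le_max (by linarith) le_rfl) 3
    have h7 : η * (max (α - (τ + (S - τ) / N)) 0) ^ 3 / 12 ≤ η * (max C' 0) ^ 3 / 12 := by
      have := mul_le_mul_of_nonneg_left h6 hη0
      linarith
    linarith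

end Vale.Agent.P146.H437
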