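import Vale.Agent.P146.H437.ApE
import Vale.Agent.P146.H97.CG2
import Vale.Agent.P146.H444.GlueU

/-!
# P146, lower half: `UpE` (helper437)
-/

namespace Vale.Agent.P146.H437

open Vale.Agent.P146.H332 Vale.Agent.P146.U

/-- **The energies with an absolute constant.** -/
theorem upE_box {β : ℝ} (hβ : 0 < β) (h2 : Ex2Out β) (hL : LStar β) : H444.UpE β :=
  upE hβ h2 hL (H97.cg hβ h2 hL)

/-- the pure laws with a field, from above -/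
theorem puUp' {β : ℝ} (hβ : 0 < β) (h2 : Ex2Out β) (hL : LStar β) :
    ∃ C : ℝ, ∃ n0 : ℕ, 0 < C ∧ 0 < n0 ∧ ∀ n : ℕ, n0 ≤ n → ∀ u : ℝ,
      (n : ℝ) ^ (-(1 / 6) : ℝ) ≤ u → u ≤ (n : ℝ) ^ (-(11 / 100) : ℝ) → PuUp n β C u :=
  puUp hβ h2 hL (H97.cg hβ h2 hL)

end Vale.Agent.P146.H437
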